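import Mathlib

/-! Tensor-product matrices on `ι → Fin 2` and the multilinear-quotient representation of
polynomials. -/

set_option autoImplicit false
set_option linter.unusedSectionVars false

namespace Crest.Agent.R327

open Matrix Finset MvPolynomial

section Rank

variable {m : Type*} [Fintype m] [DecidableEq m]

lemma rank_add_le' {K : Type*} [Field K] (A B : Matrix m m K) :
    (A + B).rank ≤ A.rank + B.rank := by
  unfold Matrix.rank
  rw [Matrix.mulVecLin_add]
  refine le_trans (Submodule.finrank_mono (t := LinearMap.range A.mulVecLin ⊔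
    LinearMap.range B.mulVecLin) ?_) (Submodule.finrank_add_le_finrank_add_finrank _ _)
  rintro x ⟨y, rfl⟩
  exact Submodule.add_mem_sup ⟨y, rfl⟩ ⟨y, rfl⟩

lemma rank_smul_le' {K : Type*} [Field K] (c : K) (A : Matrix m m K) :
    (c • A).rank ≤ A.rank := by
  have : c • A = (c • (1 : Matrix m m K)) * A := by simp
  rw [this]
  exact Matrix.rank_mul_le_right _ _

lemma rank_map_eq {K K' : Type*} [Field K] [Field K'] (f : K →+* K') (A : Matrix m m K) :
    (A.map f).rank = A.rank := by
  classical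
  obtain ⟨V, U, e, hV, hU, h⟩ := Matrix.exists_rank_normal_form A
  have hV' : IsUnit (V.map f).det := by
    rw [← Matrix.isUnit_iff_isUnit_det]
    exact hV.map f.mapMatrix
  have hU' : IsUnit (U.map f).det := by
    rw [← Matrix.isUnit_iff_isUnit_det]
    exact hU.map f.mapMatrix
  have h2 : V.map f * A.map f * U.map f = (fromBlocks 1 0 0 0).submatrix e e := by
    rw [← Matrix.map_mul, ← Matrix.map_mul, h]
    ext i j
    simp only [Matrix.map_apply, Matrix.submatrix_apply]
    rcases e i with a | a <;> rcases e j with b | b <;> simp [Matrix.one_apply]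
  rw [← Matrix.rank_mul_eq_right_of_isUnit_det (V.map f) (A.map f) hV',
    ← Matrix.rank_mul_eq_left_of_isUnit_det (U.map f) _ hU', h2, Matrix.rank_submatrix,
    ← diagonal_one, ← diagonal_zero, fromBlocks_diagonal, Matrix.rank_diagonal]
  have : ∀ i : Fin A.rank ⊕ Fin (Fintype.card m - A.rank),
      (Sum.elim (fun _ => (1 : K')) (fun _ => 0) i ≠ 0) ↔ i.isLeft := by
    rintro (a | a) <;> simp
  rw [Fintype.card_congr (Equiv.subtypeEquivRight this), Fintype.card_congr Equiv.sumIsLeft]
  simp

lemma trace_sq_le (B : Matrix m m ℝ) :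
    (Bᵀ * B).trace ^ 2 ≤ (B.rank : ℝ) * ((Bᵀ * B) * (Bᵀ * B)).trace := by
  classical
  set G := Bᵀ * B with hG
  have hH : G.IsHermitian := by
    have := Matrix.isHermitian_conjTranspose_mul_self B
    simpa [hG] using this
  have h1 : G.trace = ∑ i, hH.eigenvalues i := by
    simpa using hH.trace_eq_sum_eigenvalues
  have h2 : (G * G).trace = ∑ i, hH.eigenvalues i ^ 2 := by
    have hs := hH.spectral_theorem
    conv_lhs => rw [hs]
    rw [← map_mul]
    simp only [Unitary.conjStarAlgAut_apply]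
    rw [Matrix.trace_mul_cycle]
    simp [Matrix.diagonal_mul_diagonal, sq]
  have h3 : B.rank = Fintype.card {i // hH.eigenvalues i ≠ 0} := by
    rw [← hH.rank_eq_card_non_zero_eigs, hG, Matrix.rank_transpose_mul_self]
  rw [h1, h2, h3, Fintype.card_subtype]
  have h4 : ∑ i, hH.eigenvalues i = ∑ i ∈ univ.filter (fun i => hH.eigenvalues i ≠ 0), hH.eigenvalues i := by
    rw [Finset.sum_filter_ne_zero]
  have h5 : ∑ i ∈ univ.filter (fun i => hH.eigenvalues i ≠ 0), hH.eigenvalues i ^ 2 ≤ ∑ i, hH.eigenvalues i ^ 2 :=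
    Finset.sum_le_sum_of_subset_of_nonneg (Finset.filter_subset _ _) (fun _ _ _ => sq_nonneg _)
  rw [h4]
  refine le_trans sq_sum_le_card_mul_sum_sq ?_
  gcongr

end Rank

section Tens

variable {ι : Type*} [Fintype ι] [DecidableEq ι] {R : Type*} [CommRing R]

/-- tensor product of `2 × 2` matrices -/
def tens (m : ι → Matrix (Fin 2) (Fin 2) R) : Matrix (ι → Fin 2) (ι → Fin 2) R :=
  Matrix.of fun T' T => ∏ x, m x (T' x) (T x)

lemma tens_mul (m m' : ι → Matrix (Fin 2) (Fin 2) R) :
    tens m * tens m' = tens (fun x => m x * m' x) := by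
  ext T' T
  simp only [tens, Matrix.mul_apply, Matrix.of_apply]
  rw [Finset.prod_univ_sum]
  simp [Finset.prod_mul_distrib]

lemma tens_one : tens (fun _ : ι => (1 : Matrix (Fin 2) (Fin 2) R)) = 1 := by
  ext T' T
  simp only [tens, Matrix.of_apply, Matrix.one_apply]
  rw [Finset.prod_ite_zero]
  simp [funext_iff]

lemma tens_transpose (m : ι → Matrix (Fin 2) (Fin 2) R) :
    (tens m)ᵀ = tens (fun x => (m x)ᵀ) := by
  ext T' T
  simp [tens]

lemma trace_tens (m : ι → Matrix (Fin 2) (Fin 2) R) :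
    (tens m).trace = ∏ x, (m x).trace := by
  simp only [tens, Matrix.trace, Matrix.diag, Matrix.of_apply]
  rw [Finset.prod_univ_sum]
  simp

lemma tens_diagonal (w : ι → Fin 2 → R) :
    tens (fun x => Matrix.diagonal (w x)) = Matrix.diagonal (fun T => ∏ x, w x (T x)) := by
  ext T' T
  simp only [tens, Matrix.of_apply, Matrix.diagonal_apply]
  rw [Finset.prod_ite_zero]
  simp [funext_iff]

/-- the raising operator -/
def cr (R : Type*) [CommRing R] : Matrix (Fin 2) (Fin 2) R := !![0, 0; 1, 0]

lemma cr_sq : cr R * cr R = 0 := by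
  ext i j; fin_cases i <;> fin_cases j <;> simp [cr]

lemma cr_pow_ne_zero (j : ℕ) (b' b : Fin 2) (h : (cr R ^ j) b' b ≠ 0) :
    (b' : ℕ) = b + j := by
  rcases j with _ | _ | j
  · simp only [pow_zero, Matrix.one_apply] at h
    split_ifs at h with h'
    · simp [h']
    · exact absurd rfl h
  · fin_cases b' <;> fin_cases b <;> simp [cr] at h ⊢
  · exfalso
    apply h
    rw [pow_succ, pow_succ, mul_assoc, cr_sq, mul_zero]
    rfl

variable (R) in
/-- the matrix of a monomial -/
noncomputable def mon (d : ι →₀ ℕ) : Matrix (ι → Fin 2) (ι → Fin 2) R :=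
  tens (fun x => cr R ^ d x)

variable (ι R) in
noncomputable def monHom : Multiplicative (ι →₀ ℕ) →* Matrix (ι → Fin 2) (ι → Fin 2) R where
  toFun d := mon R d.toAdd
  map_one' := by simp [mon, tens_one]
  map_mul' a b := by simp [mon, tens_mul, pow_add]

/-- the representation on the multilinear quotient -/
noncomputable def rho : MvPolynomial ι R →ₐ[R] Matrix (ι → Fin 2) (ι → Fin 2) R :=
  AddMonoidAlgebra.lift R _ (ι →₀ ℕ) (monHom ι R)

lemma rho_monomial (d : ι →₀ ℕ) (a : R) : rho (monomial d a) = a • mon R d :=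
  AddMonoidAlgebra.lift_single _ _ _

/-- bidegree of a basis vector -/
def bd (wt : ι → ℕ × ℕ) (T : ι → Fin 2) : ℕ × ℕ := ∑ x, (T x : ℕ) • wt x

lemma mon_ne_zero (wt : ι → ℕ × ℕ) (d : ι →₀ ℕ) (T' T : ι → Fin 2) (h : mon R d T' T ≠ 0) :
    bd wt T' = bd wt T + Finsupp.weight wt d := by
  have h1 : ∀ x, (T' x : ℕ) = T x + d x := by
    intro x
    apply cr_pow_ne_zero (R := R)
    intro h0
    apply h
    simp only [mon, tens, Matrix.of_apply]
    exact Finset.prod_eq_zero (Finset.mem_univ x) h0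
  simp only [bd, h1, add_smul, Finset.sum_add_distrib]
  rw [Finsupp.weight_apply, Finsupp.sum_fintype]
  simp

lemma rho_ne_zero (wt : ι → ℕ × ℕ) {f : MvPolynomial ι R} {q : ℕ × ℕ}
    (hf : IsWeightedHomogeneous wt f q) (T' T : ι → Fin 2) (h : rho f T' T ≠ 0) :
    bd wt T' = bd wt T + q := by
  rw [f.as_sum, map_sum, Matrix.sum_apply] at h
  obtain ⟨d, hd, hne⟩ := Finset.exists_ne_zero_of_sum_ne_zero h
  rw [rho_monomial] at hne
  have : mon R d T' T ≠ 0 := by
    intro h0; apply hne; simp [h0]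
  rw [mon_ne_zero wt d T' T this, hf (mem_support_iff.1 hd)]

end Tens

end Crest.Agent.R327
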