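import Mathlib
import Crest.Agent.R327.Tens

/-! The weighted rank measure and its upper bound on products of homogeneous polynomials. -/

set_option autoImplicit false
set_option linter.unusedSectionVars false

namespace Crest.Agent.R327

open Matrix Finset MvPolynomial

variable {ι : Type*} [Fintype ι] [DecidableEq ι]

/-- projection onto a bidegree -/
noncomputable def Dp (K : Type*) [Field K] (wt : ι → ℕ × ℕ) (p : ℕ × ℕ) :
    Matrix (ι → Fin 2) (ι → Fin 2) K :=
  Matrix.diagonal (fun T => if bd wt T = p then 1 else 0)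

/-- height of a bidegree -/
def Hh (α : ℝ) (p : ℕ × ℕ) : ℝ := α * ((p.1 : ℝ) + p.2) - p.1

lemma Hh_add (α : ℝ) (p q : ℕ × ℕ) : Hh α (p + q) = Hh α p + Hh α q := by
  simp only [Hh, Prod.fst_add, Prod.snd_add]; push_cast; ring

lemma Hh_zero (α : ℝ) : Hh α 0 = 0 := by simp [Hh]

/-- weight of a bidegree -/
noncomputable def ww (L α : ℝ) (p : ℕ × ℕ) : ℝ := Real.exp (-(L * Hh α p))

lemma ww_pos (L α : ℝ) (p : ℕ × ℕ) : 0 < ww L α p := Real.exp_pos _

lemma ww_add (L α : ℝ) (p q : ℕ × ℕ) : ww L α (p + q) = ww L α p * ww L α q := by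
  simp only [ww, Hh_add, ← Real.exp_add]; congr 1; ring

lemma ww_zero (L α : ℝ) : ww L α 0 = 1 := by simp [ww, Hh_zero]

/-- total weight -/
noncomputable def ZZ (wt : ι → ℕ × ℕ) (L α : ℝ) : ℝ := ∑ T : ι → Fin 2, ww L α (bd wt T)

lemma ZZ_pos (wt : ι → ℕ × ℕ) (L α : ℝ) : 0 < ZZ wt L α :=
  Finset.sum_pos (fun _ _ => ww_pos _ _ _) Finset.univ_nonempty

variable {K : Type*} [Field K]

/-- the measure -/
noncomputable def mu (wt : ι → ℕ × ℕ) (L α : ℝ) (km : ℕ × ℕ) (f : MvPolynomial ι K) : ℝ :=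
  ∑ p ∈ univ.image (bd wt), ww L α p * ((Dp K wt (p + km) * rho f * Dp K wt p).rank : ℝ)

variable (wt : ι → ℕ × ℕ) (L α : ℝ) (km : ℕ × ℕ)

lemma mu_nonneg (f : MvPolynomial ι K) : 0 ≤ mu wt L α km f :=
  Finset.sum_nonneg fun _ _ => mul_nonneg (ww_pos _ _ _).le (Nat.cast_nonneg _)

lemma mu_zero : mu wt L α km (0 : MvPolynomial ι K) = 0 := by
  simp [mu]

lemma mu_add_le (f g : MvPolynomial ι K) :
    mu wt L α km (f + g) ≤ mu wt L α km f + mu wt L α km g := by
  simp only [mu, ← Finset.sum_add_distrib, ← mul_add]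
  refine Finset.sum_le_sum fun p _ => mul_le_mul_of_nonneg_left ?_ (ww_pos _ _ _).le
  rw [map_add, Matrix.mul_add, Matrix.add_mul]
  exact_mod_cast rank_add_le' _ _

lemma mu_smul_le (c : K) (f : MvPolynomial ι K) :
    mu wt L α km (c • f) ≤ mu wt L α km f := by
  simp only [mu]
  refine Finset.sum_le_sum fun p _ => mul_le_mul_of_nonneg_left ?_ (ww_pos _ _ _).le
  rw [map_smul, Matrix.mul_smul, Matrix.smul_mul]
  exact_mod_cast rank_smul_le' _ _

lemma mu_sum_le {σ : Type*} (s : Finset σ) (f : σ → MvPolynomial ι K) :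
    mu wt L α km (∑ i ∈ s, f i) ≤ ∑ i ∈ s, mu wt L α km (f i) := by
  classical
  induction s using Finset.induction_on with
  | empty => simp [mu_zero]
  | insert a s ha ih =>
    rw [Finset.sum_insert ha, Finset.sum_insert ha]
    exact (mu_add_le _ _ _ _ _ _).trans (by linarith)

lemma rho_mul_Dp {g : MvPolynomial ι K} {q : ℕ × ℕ} (hg : IsWeightedHomogeneous wt g q)
    (p : ℕ × ℕ) : rho g * Dp K wt p = Dp K wt (p + q) * rho g * Dp K wt p := by
  ext T' T
  simp only [Dp, Matrix.mul_diagonal, Matrix.diagonal_mul]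
  by_cases h : rho g T' T = 0
  · simp [h]
  · have := rho_ne_zero wt hg T' T h
    by_cases h2 : bd wt T = p
    · simp [h2, this]
    · simp [h2]

lemma Dp_mul_Dp_ne {p q : ℕ × ℕ} (h : p ≠ q) : Dp K wt p * Dp K wt q = 0 := by
  simp only [Dp, Matrix.diagonal_mul_diagonal]
  rw [← Matrix.diagonal_zero]
  congr 1
  funext T
  by_cases h1 : bd wt T = p
  · have : bd wt T ≠ q := fun h2 => h (h1.symm.trans h2)
    simp [this]
  · simp [h1]

lemma rank_Dp (p : ℕ × ℕ) :
    (Dp K wt p).rank = (univ.filter (fun T : ι → Fin 2 => bd wt T = p)).card := by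
  classical
  rw [Dp, Matrix.rank_diagonal, Fintype.card_subtype]
  congr 1
  ext T
  simp

lemma mu_eq_zero_of_ne {g : MvPolynomial ι K} {q : ℕ × ℕ} (hg : IsWeightedHomogeneous wt g q)
    (hq : q ≠ km) : mu wt L α km g = 0 := by
  refine Finset.sum_eq_zero fun p _ => ?_
  have hne : p + km ≠ p + q := fun h => hq (add_left_cancel h).symm
  rw [Matrix.mul_assoc, rho_mul_Dp wt hg, ← Matrix.mul_assoc, ← Matrix.mul_assoc,
    Dp_mul_Dp_ne wt hne]
  simp

lemma mu_mul_le (h : MvPolynomial ι K) {g : MvPolynomial ι K} {q : ℕ × ℕ}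
    (hg : IsWeightedHomogeneous wt g q) :
    mu wt L α km (h * g) ≤ ZZ wt L α * Real.exp (L * Hh α q) := by
  have h1 : ∀ p, ((Dp K wt (p + km) * rho (h * g) * Dp K wt p).rank : ℝ) ≤
      (univ.filter (fun T : ι → Fin 2 => bd wt T = p + q)).card := by
    intro p
    rw [← rank_Dp (K := K), map_mul, Matrix.mul_assoc, Matrix.mul_assoc, rho_mul_Dp wt hg,
      ← Matrix.mul_assoc, Matrix.mul_assoc (Dp K wt (p + q))]
    exact_mod_cast (Matrix.rank_mul_le_right _ _).trans (Matrix.rank_mul_le_left _ _)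
  have h2 : ∀ p, ww L α p = ww L α (p + q) * Real.exp (L * Hh α q) := by
    intro p
    rw [ww_add, mul_assoc, ww, ww, ← Real.exp_add]
    simp
  calc mu wt L α km (h * g)
      ≤ ∑ p ∈ univ.image (bd wt), ww L α p *
          (univ.filter (fun T : ι → Fin 2 => bd wt T = p + q)).card :=
        Finset.sum_le_sum fun p _ => mul_le_mul_of_nonneg_left (h1 p) (ww_pos _ _ _).le
    _ = (∑ p ∈ univ.image (bd wt), ∑ T ∈ univ.filter (fun T : ι → Fin 2 => bd wt T = p + q),
          ww L α (bd wt T)) * Real.exp (L * Hh α q) := by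
        rw [Finset.sum_mul]
        refine Finset.sum_congr rfl fun p _ => ?_
        rw [Finset.sum_congr rfl (g := fun _ => ww L α (p + q))
          (fun T hT => by rw [(Finset.mem_filter.1 hT).2]), h2 p]
        simp only [Finset.sum_const, nsmul_eq_mul]
        ring
    _ ≤ ZZ wt L α * Real.exp (L * Hh α q) := by
        refine mul_le_mul_of_nonneg_right ?_ (Real.exp_pos _).le
        rw [← Finset.sum_biUnion]
        · exact Finset.sum_le_sum_of_subset_of_nonneg (Finset.subset_univ _)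
            (fun _ _ _ => (ww_pos _ _ _).le)
        · intro p _ p' _ hpp
          simp only [Function.onFun]
          rw [Finset.disjoint_filter]
          intro T _ h1 h2
          exact hpp (add_right_cancel (h1.symm.trans h2))

/-- the loss factor of a homogeneous factor of degree `j` -/
noncomputable def phi (L α : ℝ) (j : ℕ) : ℝ :=
  ∑ κ ∈ range (j + 1), Real.exp (-(L * |α * j - κ| / 2))

lemma phi_nonneg (j : ℕ) : 0 ≤ phi L α j :=
  Finset.sum_nonneg fun _ _ => (Real.exp_pos _).le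

lemma weight_fst_add_snd (hwt : ∀ x, (wt x).1 + (wt x).2 = 1) (d : ι →₀ ℕ) :
    (Finsupp.weight wt d).1 + (Finsupp.weight wt d).2 = Finsupp.weight (1 : ι → ℕ) d := by
  rw [Finsupp.weight_apply, Finsupp.weight_apply, Finsupp.sum_fintype, Finsupp.sum_fintype,
    Prod.fst_sum, Prod.snd_sum, ← Finset.sum_add_distrib]
  · refine Finset.sum_congr rfl fun x _ => ?_
    simp only [Prod.smul_fst, Prod.smul_snd, smul_eq_mul, Pi.one_apply, ← mul_add, hwt]
  · simp
  · simp

lemma hom_decomp (hwt : ∀ x, (wt x).1 + (wt x).2 = 1) {Q : MvPolynomial ι K} {j : ℕ}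
    (hQ : Q.IsHomogeneous j) :
    Q = ∑ κ ∈ range (j + 1), weightedHomogeneousComponent wt (κ, j - κ) Q := by
  classical
  ext d
  rw [coeff_sum]
  simp only [coeff_weightedHomogeneousComponent]
  by_cases hd : coeff d Q = 0
  · simp [hd]
  · have h1 := weight_fst_add_snd wt hwt d
    rw [hQ hd] at h1
    rw [Finset.sum_eq_single (Finsupp.weight wt d).1]
    · rw [if_pos]
      ext
      · rfl
      · simp only; omega
    · intro κ _ hκ
      rw [if_neg]
      intro h
      apply hκ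
      rw [h]
    · intro h
      exfalso; apply h
      rw [Finset.mem_range]; omega

lemma mu_hom_eq_zero (hwt : ∀ x, (wt x).1 + (wt x).2 = 1) {Q : MvPolynomial ι K} {j : ℕ}
    (hQ : Q.IsHomogeneous j) (hj : j ≠ km.1 + km.2) : mu wt L α km Q = 0 := by
  refine le_antisymm ?_ (mu_nonneg _ _ _ _ _)
  rw [hom_decomp wt hwt hQ]
  refine (mu_sum_le _ _ _ _ _ _).trans (le_of_eq (Finset.sum_eq_zero fun κ hκ => ?_))
  refine mu_eq_zero_of_ne wt L α km (weightedHomogeneousComponent_isWeightedHomogeneous _ _) ?_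
  rintro rfl
  rw [Finset.mem_range] at hκ
  simp only at hj
  omega

lemma mu_prod_le_aux (hwt : ∀ x, (wt x).1 + (wt x).2 = 1) (hkm : Hh α km = 0)
    (s : Multiset (MvPolynomial ι K × ℕ)) (hs : ∀ x ∈ s, x.1.IsHomogeneous x.2) :
    ∀ (G₁ G₂ : MvPolynomial ι K) (q₁ q₂ : ℕ × ℕ), IsWeightedHomogeneous wt G₁ q₁ →
      IsWeightedHomogeneous wt G₂ q₂ →
      mu wt L α km (G₂ * G₁ * (s.map Prod.fst).prod) ≤
        ZZ wt L α * Real.exp (L * (Hh α q₁ - Hh α q₂) / 2) *
          (s.map (fun x => phi L α x.2)).prod := by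
  induction s using Multiset.induction_on with
  | empty =>
    intro G₁ G₂ q₁ q₂ h₁ h₂
    simp only [Multiset.map_zero, Multiset.prod_zero, mul_one]
    by_cases hq : q₂ + q₁ = km
    · have : Hh α q₂ = - Hh α q₁ := by
        have := Hh_add α q₂ q₁
        rw [hq, hkm] at this
        linarith
      rw [this]
      convert mu_mul_le wt L α km G₂ h₁ using 3
      ring
    · rw [mu_eq_zero_of_ne wt L α km (h₂.mul h₁) hq]
      exact mul_nonneg (ZZ_pos _ _ _).le (Real.exp_pos _).le
  | cons a s ih =>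
    intro G₁ G₂ q₁ q₂ h₁ h₂
    have ha := hs a (Multiset.mem_cons_self _ _)
    have ih' := ih (fun x hx => hs x (Multiset.mem_cons_of_mem hx))
    simp only [Multiset.map_cons, Multiset.prod_cons]
    conv_lhs => rw [hom_decomp wt hwt ha, Finset.sum_mul, Finset.mul_sum]
    refine (mu_sum_le _ _ _ _ _ _).trans ?_
    rw [phi, Finset.sum_mul, Finset.mul_sum]
    refine Finset.sum_le_sum fun κ hκ => ?_
    rw [Finset.mem_range] at hκ
    have hc := weightedHomogeneousComponent_isWeightedHomogeneous (w := wt) (κ, a.2 - κ) a.1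
    have hH : Hh α (κ, a.2 - κ) = α * a.2 - κ := by
      simp only [Hh]
      rw [Nat.cast_sub (by omega)]
      ring
    set Qκ := weightedHomogeneousComponent wt (κ, a.2 - κ) a.1
    rcases le_total (α * a.2 - κ) 0 with hle | hle
    · have := ih' (G₁ * Qκ) G₂ _ _ (h₁.mul hc) h₂
      rw [Hh_add, hH] at this
      rw [abs_of_nonpos hle]
      refine le_of_eq_of_le ?_ (this.trans (le_of_eq ?_))
      · congr 1; ring
      · rw [← mul_assoc, mul_assoc (ZZ wt L α) (Real.exp _) (Real.exp _), ← Real.exp_add]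
        congr 3; ring
    · have := ih' G₁ (G₂ * Qκ) _ _ h₁ (h₂.mul hc)
      rw [Hh_add, hH] at this
      rw [abs_of_nonneg hle]
      refine le_of_eq_of_le ?_ (this.trans (le_of_eq ?_))
      · congr 1; ring
      · rw [← mul_assoc, mul_assoc (ZZ wt L α) (Real.exp _) (Real.exp _), ← Real.exp_add]
        congr 3; ring

lemma mu_prod_le (hwt : ∀ x, (wt x).1 + (wt x).2 = 1) (hkm : Hh α km = 0)
    (s : Multiset (MvPolynomial ι K × ℕ)) (hs : ∀ x ∈ s, x.1.IsHomogeneous x.2) :
      mu wt L α km (s.map Prod.fst).prod ≤ ZZ wt L α * (s.map (fun x => phi L α x.2)).prod := by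
  simpa using mu_prod_le_aux wt L α km hwt hkm s hs 1 1 0 0 (isWeightedHomogeneous_one K wt)
    (isWeightedHomogeneous_one K wt)

end Crest.Agent.R327
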