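import Mathlib
import Crest.Prelude.Def_SPSPS
import Crest.Agent.R327.Measure

/-! Upper bound for the measure of a homogeneous depth-five circuit. -/

set_option autoImplicit false
set_option linter.unusedSectionVars false

namespace Crest.Agent.R327

open Matrix Finset MvPolynomial Crest.ArithCircuit

section Hom

variable {K ι L B P S R : Type*} [CommSemiring K]

lemma isHomogeneous_smul {f : MvPolynomial ι K} {j : ℕ} (hf : f.IsHomogeneous j) (c : K) :
    (c • f).IsHomogeneous j := by
  rw [smul_eq_C_mul]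
  exact hf.C_mul c

lemma isHomogeneous_multiset_prod {σ : Type*} (s : Multiset σ) (f : σ → MvPolynomial ι K)
    (d : σ → ℕ) (h : ∀ x ∈ s, (f x).IsHomogeneous (d x)) :
    (s.map f).prod.IsHomogeneous (s.map d).sum := by
  induction s using Multiset.induction_on with
  | empty => simpa using isHomogeneous_one ι K
  | cons a s ih =>
    simp only [Multiset.map_cons, Multiset.prod_cons, Multiset.sum_cons]
    exact (h a (Multiset.mem_cons_self _ _)).mul (ih fun x hx => h x (Multiset.mem_cons_of_mem hx))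

variable (C : SPSPS K ι L B P S R)

lemma leafVal_hom (l : L) : (C.leafVal l).IsHomogeneous (C.leafDeg l) := by
  unfold SPSPS.leafVal SPSPS.leafDeg
  rcases C.leaf l with x | c
  · exact isHomogeneous_X K x
  · exact isHomogeneous_C ι c

lemma valB_hom (hC : C.IsHomogeneous) (b : B) : (C.valB b).IsHomogeneous (C.degB b) :=
  IsHomogeneous.sum _ _ _ fun l hl => isHomogeneous_smul (hC.1 b l hl ▸ leafVal_hom C l) _

lemma valP_hom (hC : C.IsHomogeneous) (p : P) : (C.valP p).IsHomogeneous (C.degP p) :=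
  isHomogeneous_multiset_prod _ _ _ fun b _ => valB_hom C hC b

lemma valS_hom (hC : C.IsHomogeneous) (s : S) : (C.valS s).IsHomogeneous (C.degS s) :=
  IsHomogeneous.sum _ _ _ fun p hp => isHomogeneous_smul (hC.2.1 s p hp ▸ valP_hom C hC p) _

lemma valR_hom (hC : C.IsHomogeneous) (r : R) : (C.valR r).IsHomogeneous (C.degR r) :=
  isHomogeneous_multiset_prod _ _ _ fun s _ => valS_hom C hC s

lemma degB_le (b : B) : C.degB b ≤ 1 := by
  refine Finset.sup_le fun l _ => ?_
  unfold SPSPS.leafDeg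
  rcases C.leaf l with x | c <;> simp

end Hom

lemma phi_zero (L α : ℝ) : phi L α 0 = 1 := by simp [phi]

lemma phi_le_succ (L α : ℝ) (hL : 0 ≤ L) (j : ℕ) : phi L α j ≤ j + 1 := by
  have : ∀ κ ∈ range (j + 1), Real.exp (-(L * |α * j - κ| / 2)) ≤ 1 := by
    intro κ _
    rw [Real.exp_le_one_iff]
    have : 0 ≤ L * |α * j - κ| / 2 := by positivity
    linarith
  simpa [phi] using Finset.sum_le_card_nsmul _ _ _ this

lemma prod_phi_le_one_deg {σ : Type*} (L α : ℝ) (s : Multiset σ) (d : σ → ℕ) (h : ∀ x, d x ≤ 1) :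
    (s.map (fun x => phi L α (d x))).prod = phi L α 1 ^ (s.map d).sum := by
  induction s using Multiset.induction_on with
  | empty => simp
  | cons a s ih =>
    simp only [Multiset.map_cons, Multiset.prod_cons, Multiset.sum_cons, ih, pow_add]
    congr 1
    have := h a
    interval_cases d a
    · simp [phi_zero]
    · simp

lemma prod_phi_le_exp {σ : Type*} (L α β : ℝ) (s : Multiset σ) (d : σ → ℕ)
    (h : ∀ x ∈ s, phi L α (d x) ≤ Real.exp (β * d x)) :
    (s.map (fun x => phi L α (d x))).prod ≤ Real.exp (β * ((s.map d).sum : ℕ)) := by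
  induction s using Multiset.induction_on with
  | empty => simp
  | cons a s ih =>
    simp only [Multiset.map_cons, Multiset.prod_cons, Multiset.sum_cons, Nat.cast_add, mul_add,
      Real.exp_add]
    refine mul_le_mul (h a (Multiset.mem_cons_self _ _))
      (ih fun x hx => h x (Multiset.mem_cons_of_mem hx)) ?_ (Real.exp_pos _).le
    refine Multiset.prod_nonneg fun y hy => ?_
    obtain ⟨x, _, rfl⟩ := Multiset.mem_map.1 hy
    exact phi_nonneg _ _ _

variable {K ι Lf B P S R : Type*} [Field K] [Fintype ι] [DecidableEq ι] [Fintype P] [Fintype R]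

lemma mu_valR_le (C : SPSPS K ι Lf B P S R) (hC : C.IsHomogeneous) (wt : ι → ℕ × ℕ) (L α : ℝ)
    (km : ℕ × ℕ) (hwt : ∀ x, (wt x).1 + (wt x).2 = 1) (hkm : Hh α km = 0) (hL : 0 ≤ L)
    (low : ℕ → Prop) (β Γ : ℝ) (hΓ : 0 ≤ Γ) (hlow : ∀ j, low j → phi L α j ≤ Real.exp (β * j))
    (hhigh : ∀ j, ¬ low j → phi L α 1 ^ j ≤ Γ) (r : R) :
    mu wt L α km (C.valR r) ≤ ZZ wt L α * (Real.exp (β * (km.1 + km.2 : ℕ)) +
      Fintype.card P * (((km.1 + km.2 : ℕ) + 1) * Γ)) := by
  classical
  have hZ := ZZ_pos wt L α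
  by_cases hdeg : C.degR r = km.1 + km.2
  swap
  · rw [mu_hom_eq_zero wt L α km hwt (valR_hom C hC r) hdeg]
    positivity
  rw [← hdeg]
  by_cases hall : ∀ s ∈ C.inR r, low (C.degS s)
  · have h1 := mu_prod_le wt L α km hwt hkm ((C.inR r).map (fun s => (C.valS s, C.degS s)))
      (fun x hx => by
        obtain ⟨s, _, rfl⟩ := Multiset.mem_map.1 hx
        exact valS_hom C hC s)
    simp only [Multiset.map_map, Function.comp_def] at h1
    have h2 := prod_phi_le_exp L α β (C.inR r) C.degS (fun s hs => hlow _ (hall s hs))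
    refine h1.trans (mul_le_mul_of_nonneg_left (h2.trans ?_) hZ.le)
    exact le_add_of_nonneg_right (by positivity)
  · push Not at hall
    obtain ⟨s, hs, hls⟩ := hall
    obtain ⟨t, ht⟩ := Multiset.exists_cons_of_mem hs
    have hval : C.valR r = ∑ p ∈ C.inS s, C.coefS s p • (C.valP p * (t.map C.valS).prod) := by
      rw [SPSPS.valR, ht, Multiset.map_cons, Multiset.prod_cons, SPSPS.valS, Finset.sum_mul]
      simp only [smul_mul_assoc]
    have hrest := isHomogeneous_multiset_prod t C.valS C.degS (fun s _ => valS_hom C hC s)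
    have hrd : (t.map C.degS).sum ≤ C.degR r := by
      rw [SPSPS.degR, ht, Multiset.map_cons, Multiset.sum_cons]; omega
    have hp : ∀ p ∈ C.inS s, mu wt L α km (C.coefS s p • (C.valP p * (t.map C.valS).prod)) ≤
        ZZ wt L α * (((C.degR r : ℕ) + 1) * Γ) := by
      intro p hp
      refine (mu_smul_le _ _ _ _ _ _).trans ?_
      have h1 := mu_prod_le wt L α km hwt hkm (((t.map C.valS).prod, (t.map C.degS).sum) ::ₘ
        (C.inP p).map (fun b => (C.valB b, C.degB b)))
        (fun x hx => by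
          rcases Multiset.mem_cons.1 hx with rfl | hx
          · exact hrest
          · obtain ⟨b, _, rfl⟩ := Multiset.mem_map.1 hx
            exact valB_hom C hC b)
      simp only [Multiset.map_cons, Multiset.prod_cons, Multiset.map_map, Function.comp_def] at h1
      rw [prod_phi_le_one_deg L α _ _ (degB_le C)] at h1
      rw [mul_comm (C.valP p)]
      refine h1.trans (mul_le_mul_of_nonneg_left ?_ hZ.le)
      have h2 : ((C.inP p).map C.degB).sum = C.degS s := hC.2.1 s p hp
      rw [h2]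
      refine mul_le_mul ((phi_le_succ L α hL _).trans ?_) (hhigh _ hls)
        (pow_nonneg (phi_nonneg _ _ _) _) (by positivity)
      exact_mod_cast Nat.succ_le_succ hrd
    rw [hval]
    refine (mu_sum_le _ _ _ _ _ _).trans ((Finset.sum_le_card_nsmul _ _ _ hp).trans ?_)
    rw [nsmul_eq_mul, mul_left_comm]
    refine mul_le_mul_of_nonneg_left ?_ hZ.le
    refine le_trans ?_ (le_add_of_nonneg_left (Real.exp_pos _).le)
    gcongr
    exact Finset.card_le_univ _

lemma mu_output_le (C : SPSPS K ι Lf B P S R) (hC : C.IsHomogeneous) (wt : ι → ℕ × ℕ) (L α : ℝ)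
    (km : ℕ × ℕ) (hwt : ∀ x, (wt x).1 + (wt x).2 = 1) (hkm : Hh α km = 0) (hL : 0 ≤ L)
    (low : ℕ → Prop) (β Γ : ℝ) (hΓ : 0 ≤ Γ) (hlow : ∀ j, low j → phi L α j ≤ Real.exp (β * j))
    (hhigh : ∀ j, ¬ low j → phi L α 1 ^ j ≤ Γ) :
    mu wt L α km C.output ≤ Fintype.card R * (ZZ wt L α * (Real.exp (β * (km.1 + km.2 : ℕ)) +
      Fintype.card P * (((km.1 + km.2 : ℕ) + 1) * Γ))) := by
  have hZ := ZZ_pos wt L α
  rw [SPSPS.output]
  refine (mu_sum_le _ _ _ _ _ _).trans ((Finset.sum_le_card_nsmul _ _ _ fun r _ =>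
    (mu_smul_le _ _ _ _ _ _).trans
      (mu_valR_le C hC wt L α km hwt hkm hL low β Γ hΓ hlow hhigh r)).trans ?_)
  rw [nsmul_eq_mul]
  gcongr
  exact Finset.card_le_univ _

end Crest.Agent.R327
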