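import Mathlib
import Crest.Agent.R327.Measure

/-! Second-moment lower bound for the measure; local trace computations. -/

set_option autoImplicit false
set_option linter.unusedSectionVars false

namespace Crest.Agent.R327

open Matrix Finset MvPolynomial

section General

variable {ι : Type*} [Fintype ι] [DecidableEq ι]

/-- the diagonal weight matrix -/
noncomputable def Wm (wt : ι → ℕ × ℕ) (L α : ℝ) : Matrix (ι → Fin 2) (ι → Fin 2) ℝ :=
  Matrix.diagonal (fun T => ww L α (bd wt T))

lemma trace_Wm_mul (wt : ι → ℕ × ℕ) (L α : ℝ) (G : Matrix (ι → Fin 2) (ι → Fin 2) ℝ) :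
    (Wm wt L α * G).trace = ∑ p ∈ univ.image (bd wt), ww L α p *
      ∑ T ∈ univ.filter (fun T => bd wt T = p), G T T := by
  simp only [Wm, Matrix.trace, Matrix.diag, Matrix.diagonal_mul]
  rw [← Finset.sum_fiberwise_of_maps_to (s := univ) (t := univ.image (bd wt)) (g := bd wt)
    (fun T hT => Finset.mem_image_of_mem _ hT)]
  refine Finset.sum_congr rfl fun p _ => ?_
  rw [Finset.mul_sum]
  refine Finset.sum_congr rfl fun T hT => ?_
  rw [(Finset.mem_filter.1 hT).2]

lemma second_moment_ineq (wt : ι → ℕ × ℕ) (L α : ℝ) (M : Matrix (ι → Fin 2) (ι → Fin 2) ℝ) :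
    (Wm wt L α * (Mᵀ * M)).trace ^ 2 ≤
      (∑ p ∈ univ.image (bd wt), ww L α p * ((M * Dp ℝ wt p).rank : ℝ)) *
        (Wm wt L α * (Mᵀ * M * (Mᵀ * M))).trace := by
  rw [trace_Wm_mul, trace_Wm_mul]
  set G := Mᵀ * M with hG
  have hsym : ∀ T T', G T T' = G T' T := by
    intro T T'
    simp only [hG, Matrix.mul_apply, Matrix.transpose_apply]
    exact Finset.sum_congr rfl fun _ _ => mul_comm _ _
  have hGG : ∀ T, (G * G) T T = ∑ T', G T T' ^ 2 := by
    intro T
    rw [Matrix.mul_apply]
    exact Finset.sum_congr rfl fun T' _ => by rw [hsym T' T, sq]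
  refine Finset.sum_sq_le_sum_mul_sum_of_sq_le_mul _
    (fun p _ => mul_nonneg (ww_pos _ _ _).le (Nat.cast_nonneg _))
    (fun p _ => mul_nonneg (ww_pos _ _ _).le (Finset.sum_nonneg fun T _ => ?_)) (fun p _ => ?_)
  · rw [hGG]; exact Finset.sum_nonneg fun _ _ => sq_nonneg _
  · have h := trace_sq_le (M * Dp ℝ wt p)
    have hD : (Dp ℝ wt p)ᵀ = Dp ℝ wt p := by simp [Dp]
    have hB : (M * Dp ℝ wt p)ᵀ * (M * Dp ℝ wt p) = Dp ℝ wt p * G * Dp ℝ wt p := by
      rw [Matrix.transpose_mul, hD, hG]; simp only [Matrix.mul_assoc]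
    have hent : ∀ T T', (Dp ℝ wt p * G * Dp ℝ wt p) T T' =
        if bd wt T = p ∧ bd wt T' = p then G T T' else 0 := by
      intro T T'
      simp only [Dp, Matrix.mul_diagonal, Matrix.diagonal_mul]
      by_cases h1 : bd wt T = p <;> by_cases h2 : bd wt T' = p <;> simp [h1, h2]
    rw [hB] at h
    have h1 : (Dp ℝ wt p * G * Dp ℝ wt p).trace =
        ∑ T ∈ univ.filter (fun T => bd wt T = p), G T T := by
      simp only [Matrix.trace, Matrix.diag, hent, and_self, Finset.sum_filter]
    have h2 : (Dp ℝ wt p * G * Dp ℝ wt p * (Dp ℝ wt p * G * Dp ℝ wt p)).trace ≤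
        ∑ T ∈ univ.filter (fun T => bd wt T = p), (G * G) T T := by
      simp only [Matrix.trace, Matrix.diag, Finset.sum_filter]
      refine Finset.sum_le_sum fun T _ => ?_
      rw [Matrix.mul_apply, hGG]
      simp only [hent]
      by_cases h1 : bd wt T = p
      · simp only [h1, true_and, and_true, if_true]
        refine Finset.sum_le_sum fun T' _ => ?_
        split_ifs
        · rw [hsym T' T, sq]
        · simpa using sq_nonneg _
      · simp [h1]
    rw [h1] at h
    have h3 := h.trans (mul_le_mul_of_nonneg_left h2 (Nat.cast_nonneg _))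
    have hw := ww_pos L α p
    calc _ = ww L α p ^ 2 * (∑ T ∈ univ.filter (fun T => bd wt T = p), G T T) ^ 2 := by ring
      _ ≤ ww L α p ^ 2 * (((M * Dp ℝ wt p).rank : ℝ) *
          ∑ T ∈ univ.filter (fun T => bd wt T = p), (G * G) T T) := by gcongr
      _ = _ := by ring

lemma ww_sum {σ : Type*} (L α : ℝ) (s : Finset σ) (f : σ → ℕ × ℕ) :
    ww L α (∑ i ∈ s, f i) = ∏ i ∈ s, ww L α (f i) := by
  classical
  induction s using Finset.induction_on with
  | empty => simp [ww_zero]
  | insert a s ha ih => rw [Finset.sum_insert ha, Finset.prod_insert ha, ww_add, ih]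

lemma Wm_eq_tens (wt : ι → ℕ × ℕ) (L α : ℝ) :
    Wm wt L α = tens (fun x => Matrix.diagonal ![1, ww L α (wt x)]) := by
  rw [tens_diagonal, Wm]
  congr 1
  funext T
  rw [bd, ww_sum]
  refine Finset.prod_congr rfl fun x _ => ?_
  generalize T x = b
  fin_cases b <;> simp [ww_zero]

lemma ZZ_eq (wt : ι → ℕ × ℕ) (L α : ℝ) : ZZ wt L α = ∏ x, (1 + ww L α (wt x)) := by
  have : ZZ wt L α = (Wm wt L α).trace := by simp [ZZ, Wm]
  rw [this, Wm_eq_tens, trace_tens]
  simp

lemma mon_map {K K' : Type*} [CommRing K] [CommRing K'] (f : K →+* K') (d : ι →₀ ℕ) :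
    (mon K d).map f = mon K' d := by
  ext T' T
  simp only [mon, tens, Matrix.map_apply, Matrix.of_apply, map_prod]
  refine Finset.prod_congr rfl fun x _ => ?_
  have h1 : (cr K).map f = cr K' := by
    ext i j; fin_cases i <;> fin_cases j <;> simp [cr]
  have : (cr K ^ d x).map f = cr K' ^ d x := by
    rw [← h1]
    exact map_pow f.mapMatrix _ _
  rw [← this, Matrix.map_apply]

lemma Dp_map {K K' : Type*} [Field K] [Field K'] (f : K →+* K') (wt : ι → ℕ × ℕ) (p : ℕ × ℕ) :
    (Dp K wt p).map f = Dp K' wt p := by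
  ext T' T
  simp only [Dp, Matrix.map_apply, Matrix.diagonal_apply]
  split_ifs <;> simp

end General

section Local

/-- local first-moment trace -/
noncomputable def tau2 (ω : ℝ) (j1 j2 : ℕ) : ℝ :=
  (Matrix.diagonal ![1, ω] * ((cr ℝ ^ j1)ᵀ * cr ℝ ^ j2)).trace

/-- local second-moment trace -/
noncomputable def tau4 (ω : ℝ) (j1 j2 j3 j4 : ℕ) : ℝ :=
  (Matrix.diagonal ![1, ω] * ((cr ℝ ^ j1)ᵀ * cr ℝ ^ j2 * ((cr ℝ ^ j3)ᵀ * cr ℝ ^ j4))).trace

lemma tau2_eq (ω : ℝ) (p1 p2 : Prop) [Decidable p1] [Decidable p2] :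
    tau2 ω (if p1 then 1 else 0) (if p2 then 1 else 0) =
      if p1 then (if p2 then 1 else 0) else (if p2 then 0 else 1 + ω) := by
  by_cases h1 : p1 <;> by_cases h2 : p2 <;>
    simp [h1, h2, tau2, cr, Matrix.trace, Matrix.mul_apply, Fin.sum_univ_two]

lemma tau4_eq (ω : ℝ) (p1 p2 p3 p4 : Prop) [Decidable p1] [Decidable p2] [Decidable p3]
    [Decidable p4] :
    tau4 ω (if p1 then 1 else 0) (if p2 then 1 else 0) (if p3 then 1 else 0) (if p4 then 1 else 0) =
      if p1 then (if p2 then (if p3 then (if p4 then 1 else 0) else (if p4 then 0 else 1))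
        else (if p3 then 0 else (if p4 then 1 else 0)))
      else (if p2 then (if p3 then (if p4 then 0 else ω) else 0)
        else (if p3 then (if p4 then 1 else 0) else (if p4 then 0 else 1 + ω))) := by
  by_cases h1 : p1 <;> by_cases h2 : p2 <;> by_cases h3 : p3 <;> by_cases h4 : p4 <;>
    simp only [h1, h2, h3, h4, tau4, if_true, if_false, pow_zero, pow_one, Matrix.trace,
      Matrix.diag, Matrix.mul_apply, Fin.sum_univ_two, Matrix.transpose_apply] <;>
    simp [cr]

variable {E : Type*} [Fintype E] [DecidableEq E]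

lemma prod_one_point (a : E) (u v : ℝ) :
    (∏ e, if e = a then u else v) * v = u * v ^ Fintype.card E := by
  rw [← Finset.mul_prod_erase _ _ (Finset.mem_univ a), if_pos rfl,
    Finset.prod_congr rfl (g := fun _ => v) (fun e he => if_neg (Finset.ne_of_mem_erase he)),
    Finset.prod_const, Finset.card_erase_of_mem (Finset.mem_univ a), Finset.card_univ, mul_assoc,
    ← pow_succ, Nat.sub_add_cancel (Fintype.card_pos_iff.2 ⟨a⟩)]

lemma prod_two_point (a b : E) (hab : a ≠ b) (u u' v : ℝ) :
    (∏ e, if e = a then u else if e = b then u' else v) * v ^ 2 =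
      u * u' * v ^ Fintype.card E := by
  have h1 : (∏ e, if e = a then u else if e = b then u' else v) * v =
      u * ∏ e, if e = b then u' else v := by
    rw [← Finset.mul_prod_erase _ _ (Finset.mem_univ a), if_pos rfl,
      ← Finset.mul_prod_erase _ (fun e => if e = b then u' else v) (Finset.mem_univ a),
      if_neg hab,
      Finset.prod_congr rfl (g := fun e => if e = b then u' else v)
        (fun e he => if_neg (Finset.ne_of_mem_erase he))]
    ring
  rw [sq, ← mul_assoc, h1, mul_assoc, prod_one_point, mul_assoc]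

lemma layer_tau2 (ω : ℝ) (a : E) :
    (∏ e, tau2 ω (if e = a then 1 else 0) (if e = a then 1 else 0)) * (1 + ω) =
      (1 + ω) ^ Fintype.card E := by
  have := prod_one_point a 1 (1 + ω)
  rw [one_mul] at this
  rw [← this]
  congr 1
  refine Finset.prod_congr rfl fun e _ => ?_
  rw [tau2_eq]
  split_ifs <;> rfl

lemma layer_tau4 (ω : ℝ) (e1 e2 e3 e4 : E) :
    (∏ e, tau4 ω (if e = e1 then 1 else 0) (if e = e2 then 1 else 0) (if e = e3 then 1 else 0)
      (if e = e4 then 1 else 0)) * (1 + ω) ^ 2 =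
      (1 + ω) ^ Fintype.card E * ((if e1 = e2 ∧ e3 = e4 then 1 else 0) +
        ω * (if e1 = e4 ∧ e2 = e3 then 1 else 0)) := by
  simp only [tau4_eq]
  by_cases hP : e1 = e2 ∧ e3 = e4
  · obtain ⟨rfl, rfl⟩ := hP
    by_cases h13 : e1 = e3
    · subst h13
      have := prod_one_point e1 1 (1 + ω)
      rw [sq, ← mul_assoc]
      rw [Finset.prod_congr rfl (g := fun e => if e = e1 then 1 else 1 + ω)
        (fun e _ => by split_ifs <;> rfl), this]
      simp
    · have := prod_two_point e1 e3 h13 1 1 (1 + ω)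
      rw [Finset.prod_congr rfl (g := fun e => if e = e1 then 1 else if e = e3 then 1 else 1 + ω)
        (fun e _ => by split_ifs <;> simp_all), this]
      simp [h13]
  · by_cases hQ : e1 = e4 ∧ e2 = e3
    · obtain ⟨rfl, rfl⟩ := hQ
      have h12 : e1 ≠ e2 := fun h => hP ⟨h, h.symm⟩
      have := prod_two_point e1 e2 h12 1 ω (1 + ω)
      rw [Finset.prod_congr rfl (g := fun e => if e = e1 then 1 else if e = e2 then ω else 1 + ω)
        (fun e _ => by split_ifs <;> simp_all), this]
      simp [h12, mul_comm]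
    · rw [if_neg hP, if_neg hQ]
      simp only [mul_zero, add_zero, mul_eq_zero]
      left
      by_cases h12 : e1 = e2
      · subst h12
        have h34 : e3 ≠ e4 := fun h => hP ⟨rfl, h⟩
        by_cases h13 : e1 = e3
        · subst h13
          exact Finset.prod_eq_zero (Finset.mem_univ e1) (by simp [h34])
        · refine Finset.prod_eq_zero (Finset.mem_univ e3) ?_
          simp [h34, Ne.symm h13]
      · by_cases h14 : e1 = e4
        · subst h14
          have h23 : e2 ≠ e3 := fun h => hQ ⟨rfl, h⟩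
          refine Finset.prod_eq_zero (Finset.mem_univ e2) ?_
          simp [h23, Ne.symm h12]
        · refine Finset.prod_eq_zero (Finset.mem_univ e1) ?_
          simp [h12, h14]

end Local

end Crest.Agent.R327
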