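import Mathlib

/-! Path expansion of a product of matrices. -/

set_option autoImplicit false
set_option linter.unusedSectionVars false

namespace Crest.Agent.R327

open Matrix Finset

variable {V : Type*} [Fintype V] [DecidableEq V]

/-- vertex sequences of length `d + 1` from `i` to `j` -/
def paths (d : ℕ) (i j : V) : Finset (Fin (d + 1) → V) :=
  univ.filter (fun π => π 0 = i ∧ π (Fin.last d) = j)

lemma prod_ofFn_apply {R : Type*} [CommSemiring R] (d : ℕ) (A : Fin d → Matrix V V R) (i j : V) :
    (List.ofFn A).prod i j = ∑ π ∈ paths d i j, ∏ l : Fin d, A l (π l.castSucc) (π l.succ) := by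
  induction d generalizing i with
  | zero =>
    simp only [List.ofFn_zero, List.prod_nil, Matrix.one_apply, paths, Finset.sum_filter,
      Finset.univ_eq_empty, Finset.prod_empty]
    erw [← (Equiv.funUnique (Fin 1) V).symm.sum_comp]
    by_cases h : i = j
    · subst h; simp
    · simp only [h, if_false]
      symm
      refine Finset.sum_eq_zero fun x _ => ?_
      rw [if_neg]
      rintro ⟨h1, h2⟩
      exact h (h1.symm.trans h2)
  | succ d ih =>
    rw [List.ofFn_succ, List.prod_cons, Matrix.mul_apply]
    simp only [ih, paths, Finset.sum_filter, Finset.mul_sum]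
    rw [← (Fin.consEquiv (fun _ : Fin (d + 1 + 1) => V)).sum_comp, Fintype.sum_prod_type,
      Finset.sum_comm, Finset.sum_comm (s := univ) (t := univ)
        (f := fun (x : V) (y : Fin (d + 1) → V) => _)]
    refine Finset.sum_congr rfl fun π _ => ?_
    rw [Finset.sum_eq_single (π 0), Finset.sum_eq_single i]
    · simp only [Fin.consEquiv_apply, true_and, Fin.prod_univ_succ]
      have e1 : ∀ x : Fin (d + 1), (Fin.cons i π : Fin (d + 1 + 1) → V) x.succ = π x :=
        fun x => by simp
      have e2 : (Fin.cons i π : Fin (d + 1 + 1) → V) (Fin.last (d + 1)) = π (Fin.last d) := by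
        rw [← Fin.succ_last, e1]
      simp [e2]
    · intro b _ hb
      simp [hb]
    · simp
    · intro b _ hb
      simp [Ne.symm hb]
    · simp

lemma card_paths (d : ℕ) (i j : V) : (paths (d + 1) i j).card = Fintype.card V ^ d := by
  have h := prod_ofFn_apply (R := ℕ) (d + 1) (fun _ => Matrix.of fun _ _ : V => (1 : ℕ)) i j
  simp only [Matrix.of_apply, Finset.prod_const_one, Finset.sum_const, smul_eq_mul, mul_one] at h
  rw [← h]
  clear h
  induction d generalizing i with
  | zero => simp
  | succ d ih =>
    rw [List.ofFn_succ, List.prod_cons, Matrix.mul_apply]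
    simp only [ih]
    simp [pow_succ']

end Crest.Agent.R327
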