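import Mathlib
import Crest.Agent.R327.Paths

/-! Transfer-matrix bound for the second moment. -/

set_option autoImplicit false
set_option linter.unusedSectionVars false

namespace Crest.Agent.R327

open Matrix Finset

lemma sum_paths_prod {V V' : Type*} [Fintype V] [DecidableEq V] [Fintype V'] [DecidableEq V']
    (d : ℕ) (i j : V) (i' j' : V') (F : (Fin (d + 1) → V × V') → ℝ) :
    ∑ π ∈ paths d i j, ∑ π' ∈ paths d i' j', F (fun l => (π l, π' l)) =
      ∑ P ∈ paths d (i, i') (j, j'), F P := by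
  rw [← Finset.sum_product']
  refine Finset.sum_bij' (fun x _ => fun l => (x.1 l, x.2 l))
    (fun P _ => (fun l => (P l).1, fun l => (P l).2)) ?_ ?_ ?_ ?_ ?_
  · rintro ⟨π, π'⟩ h
    simp only [paths, Finset.mem_product, Finset.mem_filter, Finset.mem_univ, true_and] at h ⊢
    simp [h.1.1, h.1.2, h.2.1, h.2.2]
  · intro P h
    simp only [paths, Finset.mem_product, Finset.mem_filter, Finset.mem_univ, true_and] at h ⊢
    simp [h.1, h.2]
  · rintro ⟨π, π'⟩ _; rfl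
  · intro P _; rfl
  · rintro ⟨π, π'⟩ _; rfl

variable {V : Type*} [Fintype V] [DecidableEq V]

/-- indicator of the pairing `(12)(34)` -/
def PP (v : V × V × V × V) : ℝ := if v.1 = v.2.1 ∧ v.2.2.1 = v.2.2.2 then 1 else 0

/-- indicator of the pairing `(14)(23)` -/
def QQ (v : V × V × V × V) : ℝ := if v.1 = v.2.2.2 ∧ v.2.1 = v.2.2.1 then 1 else 0

/-- the transfer matrix -/
def Kt (ω : ℝ) : Matrix (V × V × V × V) (V × V × V × V) ℝ :=
  Matrix.of fun v v' => PP v * PP v' + ω * (QQ v * QQ v')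

lemma sum_PP_PP : ∑ v : V × V × V × V, PP v * PP v = (Fintype.card V : ℝ) ^ 2 := by
  simp [PP, Fintype.sum_prod_type, ite_and, sq]

lemma sum_QQ_QQ : ∑ v : V × V × V × V, QQ v * QQ v = (Fintype.card V : ℝ) ^ 2 := by
  simp [QQ, Fintype.sum_prod_type, ite_and, sq]

lemma sum_PP_QQ : ∑ v : V × V × V × V, PP v * QQ v = (Fintype.card V : ℝ) := by
  simp [PP, QQ, Fintype.sum_prod_type, ite_and]

lemma row_step (F : V × V × V × V → ℝ) (ω : ℝ) (v' : V × V × V × V) :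
    ∑ v, F v * Kt ω v v' = (∑ v, F v * PP v) * PP v' + ω * (∑ v, F v * QQ v) * QQ v' := by
  simp only [Kt, Matrix.of_apply, Finset.sum_mul, Finset.mul_sum, ← Finset.sum_add_distrib]
  exact Finset.sum_congr rfl fun v _ => by ring

lemma transfer_aux (r : ℝ) (hr : 0 < r) (hV : (Fintype.card V : ℝ) = r ^ 2) (η : ℕ → ℝ)
    (v0 : V) (h0 : 1 ≤ η 0) (ω : ℕ → ℝ) (d : ℕ) (hω : ∀ l < d, ω l * η l = η (l + 1))
    (hω0 : ∀ l, 0 ≤ ω l) (hη : ∀ l ≤ d, η l ≤ r ∧ 1 ≤ r * η l) :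
    (∑ v, (List.ofFn (fun l : Fin d => Kt (V := V) (ω l))).prod (v0, v0, v0, v0) v * PP v ≤
        (r ^ 4 * (1 + r⁻¹)) ^ d) ∧
      (∑ v, (List.ofFn (fun l : Fin d => Kt (V := V) (ω l))).prod (v0, v0, v0, v0) v * QQ v ≤
        (r ^ 4 * (1 + r⁻¹)) ^ d * η d) := by
  induction d with
  | zero =>
    simp only [List.ofFn_zero, List.prod_nil, Matrix.one_apply, ite_mul, one_mul, zero_mul,
      Finset.sum_ite_eq, Finset.mem_univ, if_true, pow_zero]
    simp [PP, QQ, h0]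
  | succ d ih =>
    obtain ⟨ha, hb⟩ := ih (fun l hl => hω l (by omega)) (fun l hl => hη l (by omega))
    rw [List.ofFn_succ', List.prod_concat]
    simp only [Fin.val_castSucc, Fin.val_last, Matrix.mul_apply, row_step]
    set a := ∑ v, (List.ofFn (fun l : Fin d => Kt (V := V) (ω l))).prod (v0, v0, v0, v0) v * PP v
    set b := ∑ v, (List.ofFn (fun l : Fin d => Kt (V := V) (ω l))).prod (v0, v0, v0, v0) v * QQ v
    set C := (r ^ 4 * (1 + r⁻¹)) ^ d with hC
    have hCpos : 0 < C := by positivity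
    have hb' : ω d * b ≤ C * η (d + 1) := by
      rw [← hω d (by omega)]
      calc ω d * b ≤ ω d * (C * η d) := mul_le_mul_of_nonneg_left hb (hω0 d)
        _ = _ := by ring
    obtain ⟨h1, h2⟩ := hη (d + 1) le_rfl
    have e1 : ∑ v : V × V × V × V, (a * PP v + ω d * b * QQ v) * PP v =
        a * r ^ 4 + ω d * b * r ^ 2 := by
      simp only [add_mul, Finset.sum_add_distrib, mul_assoc, ← Finset.mul_sum]
      rw [sum_PP_PP, Finset.sum_congr rfl (fun v _ => mul_comm (QQ v) (PP v)), sum_PP_QQ, hV]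
      ring
    have e2 : ∑ v : V × V × V × V, (a * PP v + ω d * b * QQ v) * QQ v =
        a * r ^ 2 + ω d * b * r ^ 4 := by
      simp only [add_mul, Finset.sum_add_distrib, mul_assoc, ← Finset.mul_sum]
      rw [sum_QQ_QQ, sum_PP_QQ, hV]
      ring
    rw [e1, e2, pow_succ (r ^ 4 * (1 + r⁻¹)) d, ← hC]
    have e3 : r ^ 4 * (1 + r⁻¹) = r ^ 4 + r ^ 3 := by field_simp
    rw [e3]
    constructor
    · calc a * r ^ 4 + ω d * b * r ^ 2 ≤ C * r ^ 4 + C * η (d + 1) * r ^ 2 := by gcongr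
        _ ≤ C * r ^ 4 + C * r * r ^ 2 := by gcongr
        _ = _ := by ring
    · calc a * r ^ 2 + ω d * b * r ^ 4 ≤ C * r ^ 2 + C * η (d + 1) * r ^ 4 := by gcongr
        _ = C * 1 * r ^ 2 + C * η (d + 1) * r ^ 4 := by ring
        _ ≤ C * (r * η (d + 1)) * r ^ 2 + C * η (d + 1) * r ^ 4 := by gcongr
        _ = _ := by ring

lemma transfer (r : ℝ) (hr : 0 < r) (hV : (Fintype.card V : ℝ) = r ^ 2) (η : ℕ → ℝ)
    (v0 : V) (h0 : 1 ≤ η 0) (ω : ℕ → ℝ) (d : ℕ) (hω : ∀ l < d + 1, ω l * η l = η (l + 1))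
    (hω0 : ∀ l, 0 ≤ ω l) (hη : ∀ l ≤ d + 1, η l ≤ r ∧ 1 ≤ r * η l) :
    (List.ofFn (fun l : Fin (d + 1) => Kt (V := V) (ω l))).prod (v0, v0, v0, v0) (v0, v0, v0, v0) ≤
        (r ^ 4 * (1 + r⁻¹)) ^ d * (1 + r) := by
  obtain ⟨ha, hb⟩ := transfer_aux r hr hV η v0 h0 ω d (fun l hl => hω l (by omega)) hω0
    (fun l hl => hη l (by omega))
  rw [List.ofFn_succ', List.prod_concat]
  simp only [Fin.val_castSucc, Fin.val_last, Matrix.mul_apply, row_step]
  set a := ∑ v, (List.ofFn (fun l : Fin d => Kt (V := V) (ω l))).prod (v0, v0, v0, v0) v * PP v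
  set b := ∑ v, (List.ofFn (fun l : Fin d => Kt (V := V) (ω l))).prod (v0, v0, v0, v0) v * QQ v
  set C := (r ^ 4 * (1 + r⁻¹)) ^ d with hC
  have hCpos : 0 < C := by positivity
  have hb' : ω d * b ≤ C * η (d + 1) := by
    rw [← hω d (by omega)]
    calc ω d * b ≤ ω d * (C * η d) := mul_le_mul_of_nonneg_left hb (hω0 d)
      _ = _ := by ring
  obtain ⟨h1, h2⟩ := hη (d + 1) le_rfl
  simp only [PP, QQ, and_self, if_true, mul_one]
  calc a + ω d * b ≤ C + C * η (d + 1) := by linarith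
    _ ≤ C + C * r := by gcongr
    _ = _ := by ring

end Crest.Agent.R327
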