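import Mathlib
import Crest.Prelude.Def_SPSPS
import Crest.Agent.R327.Lower1
import Crest.Agent.R327.Transfer

/-! Lower bound for the measure of the iterated matrix multiplication polynomial. -/

set_option autoImplicit false
set_option linter.unusedSectionVars false

namespace Crest.Agent.R327

open Matrix Finset MvPolynomial Crest.ArithCircuit

/-- the exponent vector of a path -/
noncomputable def dpath {n : ℕ} (π : Fin (n + 1) → Fin n) : (Fin n × Fin n × Fin n) →₀ ℕ :=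
  ∑ l : Fin n, Finsupp.single (l, π l.castSucc, π l.succ) 1

lemma dpath_apply {n : ℕ} (π : Fin (n + 1) → Fin n) (l : Fin n) (e : Fin n × Fin n) :
    dpath π (l, e) = if e = (π l.castSucc, π l.succ) then 1 else 0 := by
  rw [dpath, Finsupp.finsetSum_apply, Finset.sum_eq_single l]
  · simp [Finsupp.single_apply, eq_comm]
  · intro b _ hb
    simp [hb]
  · simp

lemma imm_eq (K : Type*) [CommSemiring K] (N : ℕ) :
    imm K (N + 1) = ∑ π ∈ paths (N + 1) (0 : Fin (N + 1)) 0, monomial (dpath π) 1 := by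
  rw [imm, prod_ofFn_apply]
  refine Finset.sum_congr rfl fun π _ => ?_
  rw [dpath, monomial_sum_one]
  rfl

lemma rho_imm (K : Type*) [Field K] (N : ℕ) :
    rho (imm K (N + 1)) = ∑ π ∈ paths (N + 1) (0 : Fin (N + 1)) 0, mon K (dpath π) := by
  rw [imm_eq, map_sum]
  simp [rho_monomial]

lemma rho_imm_map {K K' : Type*} [Field K] [Field K'] (f : K →+* K') (N : ℕ) :
    (rho (imm K (N + 1))).map f = rho (imm K' (N + 1)) := by
  rw [rho_imm, rho_imm]
  have := map_sum (f.mapMatrix (m := Fin (N + 1) × Fin (N + 1) × Fin (N + 1) → Fin 2))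
    (fun π => mon K (dpath π)) (paths (N + 1) (0 : Fin (N + 1)) 0)
  simp only [RingHom.mapMatrix_apply, mon_map] at this
  exact this

lemma mu_imm_map {K K' : Type*} [Field K] [Field K'] (f : K →+* K') (N : ℕ)
    (wt : Fin (N + 1) × Fin (N + 1) × Fin (N + 1) → ℕ × ℕ) (L α : ℝ) (km : ℕ × ℕ) :
    mu wt L α km (imm K' (N + 1)) = mu wt L α km (imm K (N + 1)) := by
  refine Finset.sum_congr rfl fun p _ => ?_
  rw [← rank_map_eq f, Matrix.map_mul, Matrix.map_mul, Dp_map, Dp_map, rho_imm_map]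

lemma imm_weightedHom (K : Type*) [Field K] (N : ℕ) (lw : ℕ → ℕ × ℕ) :
    IsWeightedHomogeneous (fun x : Fin (N + 1) × Fin (N + 1) × Fin (N + 1) => lw x.1)
      (imm K (N + 1)) (∑ l : Fin (N + 1), lw l) := by
  rw [imm_eq]
  refine IsWeightedHomogeneous.sum _ _ _ fun π _ => isWeightedHomogeneous_monomial _ _ _ ?_
  rw [dpath, map_sum]
  simp [Finsupp.weight_single]

section Moments

variable (N : ℕ) (lw : ℕ → ℕ × ℕ) (L α : ℝ)

lemma trace2 (π π' : Fin (N + 1 + 1) → Fin (N + 1)) :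
    (Wm (fun x : Fin (N + 1) × Fin (N + 1) × Fin (N + 1) => lw x.1) L α *
      ((mon ℝ (dpath π))ᵀ * mon ℝ (dpath π'))).trace =
      ∏ l : Fin (N + 1), ∏ e : Fin (N + 1) × Fin (N + 1), tau2 (ww L α (lw l))
        (if e = (π l.castSucc, π l.succ) then 1 else 0)
        (if e = (π' l.castSucc, π' l.succ) then 1 else 0) := by
  rw [Wm_eq_tens, mon, mon, tens_transpose, tens_mul, tens_mul, trace_tens, Fintype.prod_prod_type]
  simp only [dpath_apply, tau2]

lemma trace4 (π1 π2 π3 π4 : Fin (N + 1 + 1) → Fin (N + 1)) :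
    (Wm (fun x : Fin (N + 1) × Fin (N + 1) × Fin (N + 1) => lw x.1) L α *
      ((mon ℝ (dpath π1))ᵀ * mon ℝ (dpath π2) *
        ((mon ℝ (dpath π3))ᵀ * mon ℝ (dpath π4)))).trace =
      ∏ l : Fin (N + 1), ∏ e : Fin (N + 1) × Fin (N + 1), tau4 (ww L α (lw l))
        (if e = (π1 l.castSucc, π1 l.succ) then 1 else 0)
        (if e = (π2 l.castSucc, π2 l.succ) then 1 else 0)
        (if e = (π3 l.castSucc, π3 l.succ) then 1 else 0)
        (if e = (π4 l.castSucc, π4 l.succ) then 1 else 0) := by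
  rw [Wm_eq_tens, mon, mon, mon, mon, tens_transpose, tens_transpose, tens_mul, tens_mul, tens_mul,
    tens_mul, trace_tens, Fintype.prod_prod_type]
  simp only [dpath_apply, tau4]

lemma ZZ_imm : ZZ (fun x : Fin (N + 1) × Fin (N + 1) × Fin (N + 1) => lw x.1) L α =
    ∏ l : Fin (N + 1), (1 + ww L α (lw l)) ^ Fintype.card (Fin (N + 1) × Fin (N + 1)) := by
  rw [ZZ_eq, Fintype.prod_prod_type]
  simp

lemma first_moment :
    ((N + 1 : ℕ) : ℝ) ^ N * ZZ (fun x : Fin (N + 1) × Fin (N + 1) × Fin (N + 1) => lw x.1) L α ≤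
      (Wm (fun x : Fin (N + 1) × Fin (N + 1) × Fin (N + 1) => lw x.1) L α *
        ((rho (imm ℝ (N + 1)))ᵀ * rho (imm ℝ (N + 1)))).trace *
        ∏ l : Fin (N + 1), (1 + ww L α (lw l)) := by
  rw [rho_imm, Matrix.transpose_sum, Finset.sum_mul_sum]
  simp only [Finset.mul_sum, Matrix.trace_sum, trace2]
  have hc := card_paths N (0 : Fin (N + 1)) 0
  rw [Fintype.card_fin] at hc
  rw [← Nat.cast_pow, ← hc, ← nsmul_eq_mul, ← Finset.sum_const, Finset.sum_mul]
  refine Finset.sum_le_sum fun π hπ => ?_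
  have hpos : 0 ≤ ∏ l : Fin (N + 1), (1 + ww L α (lw l)) :=
    Finset.prod_nonneg fun l _ => by have := ww_pos L α (lw l); positivity
  refine le_trans (le_of_eq ?_) (mul_le_mul_of_nonneg_right
    (Finset.single_le_sum (fun π' _ => ?_) hπ) hpos)
  · rw [← Finset.prod_mul_distrib, ZZ_imm]
    exact Finset.prod_congr rfl fun l _ => (layer_tau2 _ _).symm
  · refine Finset.prod_nonneg fun l _ => Finset.prod_nonneg fun e _ => ?_
    rw [tau2_eq]
    have := ww_pos L α (lw l)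
    split_ifs <;> positivity

lemma second_moment :
    (Wm (fun x : Fin (N + 1) × Fin (N + 1) × Fin (N + 1) => lw x.1) L α *
        ((rho (imm ℝ (N + 1)))ᵀ * rho (imm ℝ (N + 1)) *
          ((rho (imm ℝ (N + 1)))ᵀ * rho (imm ℝ (N + 1))))).trace *
        (∏ l : Fin (N + 1), (1 + ww L α (lw l))) ^ 2 =
      ZZ (fun x : Fin (N + 1) × Fin (N + 1) × Fin (N + 1) => lw x.1) L α *
        (List.ofFn (fun l : Fin (N + 1) => Kt (V := Fin (N + 1)) (ww L α (lw l)))).prod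
          (0, 0, 0, 0) (0, 0, 0, 0) := by
  rw [prod_ofFn_apply, ← sum_paths_prod]
  have e1 : ∀ π1 : Fin (N + 1 + 1) → Fin (N + 1),
      ∑ P ∈ paths (N + 1) ((0, 0, 0) : Fin (N + 1) × Fin (N + 1) × Fin (N + 1)) (0, 0, 0),
        ∏ l : Fin (N + 1), Kt (ww L α (lw l)) (π1 l.castSucc, P l.castSucc) (π1 l.succ, P l.succ) =
      ∑ π2 ∈ paths (N + 1) (0 : Fin (N + 1)) 0, ∑ π3 ∈ paths (N + 1) (0 : Fin (N + 1)) 0,
        ∑ π4 ∈ paths (N + 1) (0 : Fin (N + 1)) 0, ∏ l : Fin (N + 1),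
          Kt (ww L α (lw l)) (π1 l.castSucc, π2 l.castSucc, π3 l.castSucc, π4 l.castSucc)
            (π1 l.succ, π2 l.succ, π3 l.succ, π4 l.succ) := by
    intro π1
    rw [← sum_paths_prod]
    refine Finset.sum_congr rfl fun π2 _ => ?_
    rw [← sum_paths_prod (F := fun P => ∏ l : Fin (N + 1),
      Kt (ww L α (lw l)) (π1 l.castSucc, π2 l.castSucc, P l.castSucc) (π1 l.succ, π2 l.succ, P l.succ))]
  simp only [e1]
  rw [rho_imm, Matrix.transpose_sum, Finset.sum_mul_sum]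
  simp only [Finset.sum_mul]
  simp only [Finset.mul_sum, Matrix.trace_sum, trace4, Finset.sum_mul]
  refine Finset.sum_congr rfl fun π1 _ => Finset.sum_congr rfl fun π2 _ =>
    Finset.sum_congr rfl fun π3 _ => Finset.sum_congr rfl fun π4 _ => ?_
  rw [← Finset.prod_pow, ← Finset.prod_mul_distrib, ZZ_imm, ← Finset.prod_mul_distrib]
  refine Finset.prod_congr rfl fun l _ => ?_
  rw [layer_tau4]
  congr 1
  simp only [Kt, PP, QQ, Matrix.of_apply, Prod.mk.injEq, ite_zero_mul_ite_zero, mul_one]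
  congr 1
  · exact if_congr (by tauto) rfl rfl
  · congr 1
    exact if_congr (by tauto) rfl rfl

lemma final_algebra (r : ℝ) (hr : 0 < r) {Z m Pi t1 t2 k : ℝ} (hZ : 0 < Z) (hm : 0 ≤ m)
    (h1 : t1 ^ 2 ≤ m * t2) (h2 : (r ^ 2) ^ N * Z ≤ t1 * Pi) (h3 : t2 * Pi ^ 2 = Z * k)
    (h4 : k ≤ (r ^ 4 * (1 + r⁻¹)) ^ N * (1 + r)) : Z ≤ m * ((1 + r⁻¹) ^ N * (1 + r)) := by
  have h5 : ((r ^ 2) ^ N * Z) ^ 2 ≤ (t1 * Pi) ^ 2 := by gcongr
  have h6 : (t1 * Pi) ^ 2 ≤ m * (Z * ((r ^ 4 * (1 + r⁻¹)) ^ N * (1 + r))) := by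
    calc (t1 * Pi) ^ 2 = t1 ^ 2 * Pi ^ 2 := by ring
      _ ≤ m * t2 * Pi ^ 2 := by gcongr
      _ = m * (Z * k) := by rw [mul_assoc, h3]
      _ ≤ _ := by gcongr
  have h7 : (r ^ 4) ^ N * Z * Z ≤ (r ^ 4) ^ N * Z * (m * ((1 + r⁻¹) ^ N * (1 + r))) := by
    calc (r ^ 4) ^ N * Z * Z = ((r ^ 2) ^ N * Z) ^ 2 := by ring
      _ ≤ _ := h5.trans h6
      _ = _ := by rw [mul_pow]; ring
  exact le_of_mul_le_mul_left h7 (by positivity)

theorem mu_imm_ge (K : Type*) [Field K] [CharZero K] (r : ℝ) (hr : 0 < r)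
    (hV : ((N + 1 : ℕ) : ℝ) = r ^ 2) (η : ℕ → ℝ) (h0 : 1 ≤ η 0)
    (hω : ∀ l < N + 1, ww L α (lw l) * η l = η (l + 1))
    (hη : ∀ l ≤ N + 1, η l ≤ r ∧ 1 ≤ r * η l) :
    ZZ (fun x : Fin (N + 1) × Fin (N + 1) × Fin (N + 1) => lw x.1) L α ≤
      mu (fun x : Fin (N + 1) × Fin (N + 1) × Fin (N + 1) => lw x.1) L α
        (∑ l : Fin (N + 1), lw l) (imm K (N + 1)) * ((1 + r⁻¹) ^ N * (1 + r)) := by
  rw [mu_imm_map (Rat.castHom K), ← mu_imm_map (Rat.castHom ℝ)]
  set wt := fun x : Fin (N + 1) × Fin (N + 1) × Fin (N + 1) => lw x.1 with hwt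
  have hmu : mu wt L α (∑ l : Fin (N + 1), lw l) (imm ℝ (N + 1)) =
      ∑ p ∈ univ.image (bd wt), ww L α p * ((rho (imm ℝ (N + 1)) * Dp ℝ wt p).rank : ℝ) := by
    refine Finset.sum_congr rfl fun p _ => ?_
    rw [← rho_mul_Dp wt (imm_weightedHom ℝ N lw)]
  have h1 := second_moment_ineq wt L α (rho (imm ℝ (N + 1)))
  rw [← hmu] at h1
  have h2 := first_moment N lw L α
  have h3 := second_moment N lw L α
  have h4 := transfer (V := Fin (N + 1)) r hr (by simpa using hV) η 0 h0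
    (fun l => ww L α (lw l)) N hω (fun l => (ww_pos _ _ _).le) hη
  rw [← hwt] at h2 h3
  have hZ := ZZ_pos wt L α
  have hm := mu_nonneg wt L α (∑ l : Fin (N + 1), lw l) (imm ℝ (N + 1))
  rw [hV] at h2
  exact final_algebra N r hr hZ hm h1 h2 h3 h4

end Moments

end Crest.Agent.R327
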