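import Mathlib
import Crest.Agent.R327.Circuit

/-! Analytic bounds for the loss factors. -/

set_option autoImplicit false
set_option linter.unusedSectionVars false

namespace Crest.Agent.R327

open Finset Real

lemma phi_near (L α : ℝ) (hL : 0 ≤ L) (j κ₀ : ℕ) (h : ℝ) (hh : |α * j - κ₀| = h) :
    phi L α j ≤ exp (-(L * h / 2)) + 2 * exp (-(L * (1 - h) / 2)) +
      (j + 1) * exp (-(L * (2 - h) / 2)) := by
  have key : ∀ (κ : ℕ) (c : ℝ), c ≤ |(κ : ℝ) - κ₀| →
      exp (-(L * |α * j - κ| / 2)) ≤ exp (-(L * (c - h) / 2)) := by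
    intro κ c hc
    rw [exp_le_exp]
    have h1 : |(κ : ℝ) - κ₀| ≤ |α * j - κ| + |α * j - κ₀| := by
      have := abs_sub_le (κ : ℝ) (α * j) κ₀
      rwa [abs_sub_comm (κ : ℝ) (α * j)] at this
    have h2 : c - h ≤ |α * j - κ| := by linarith
    have := mul_le_mul_of_nonneg_left h2 hL
    linarith
  have hterm : ∀ κ ∈ range (j + 1), exp (-(L * |α * j - κ| / 2)) ≤
      (if κ = κ₀ then exp (-(L * h / 2)) else 0) +
      (if κ = κ₀ + 1 then exp (-(L * (1 - h) / 2)) else 0) +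
      (if κ = κ₀ - 1 then exp (-(L * (1 - h) / 2)) else 0) + exp (-(L * (2 - h) / 2)) := by
    intro κ _
    have e1 := exp_pos (-(L * h / 2))
    have e2 := exp_pos (-(L * (1 - h) / 2))
    have e3 := exp_pos (-(L * (2 - h) / 2))
    by_cases h0 : κ = κ₀
    · subst h0
      rw [hh, if_pos rfl]
      split_ifs <;> linarith
    · rw [if_neg h0]
      by_cases h1 : κ = κ₀ + 1
      · have := key κ 1 (by rw [h1]; simp)
        rw [if_pos h1]
        split_ifs <;> linarith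
      · rw [if_neg h1]
        by_cases h2 : κ = κ₀ - 1
        · have h3 : κ₀ = κ + 1 := by omega
          have := key κ 1 (by rw [h3]; simp)
          rw [if_pos h2]
          linarith
        · rw [if_neg h2]
          have := key κ 2 (by
            rcases lt_or_gt_of_ne h0 with h3 | h3
            · have : κ + 2 ≤ κ₀ := by omega
              have : (κ : ℝ) + 2 ≤ κ₀ := by exact_mod_cast this
              rw [abs_sub_comm]
              exact le_trans (by linarith) (le_abs_self _)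
            · have : κ₀ + 2 ≤ κ := by omega
              have : (κ₀ : ℝ) + 2 ≤ κ := by exact_mod_cast this
              exact le_trans (by linarith) (le_abs_self _))
          linarith
  refine (Finset.sum_le_sum hterm).trans ?_
  simp only [Finset.sum_add_distrib, Finset.sum_ite_eq', Finset.sum_const, Finset.card_range,
    nsmul_eq_mul]
  have e1 := exp_pos (-(L * h / 2))
  have e2 := exp_pos (-(L * (1 - h) / 2))
  push_cast
  split_ifs <;> linarith

lemma convex_step (L h : ℝ) (h0 : 0 ≤ h) (h1 : h ≤ 1 / 2) (hL : 5 * exp (-(L / 8)) ≤ 1) :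
    exp (-(L * h / 2)) + 4 * exp (-(L * (1 - h) / 2)) ≤
      exp (-(L * h / 4)) * (1 + 4 * exp (-(L / 2))) := by
  have ha : 0 ≤ 1 - 2 * h := by linarith
  have hb : 0 ≤ 2 * h := by linarith
  have hab : (1 - 2 * h) + 2 * h = 1 := by ring
  have c1 := convexOn_exp.2 (Set.mem_univ 0) (Set.mem_univ (-(L / 8))) ha hb hab
  have c2 := convexOn_exp.2 (Set.mem_univ (-(L / 2))) (Set.mem_univ (-(L / 8))) ha hb hab
  simp only [smul_eq_mul, exp_zero] at c1 c2
  have e1 : exp (-(L * h / 2)) = exp (-(L * h / 4)) * exp ((1 - 2 * h) * 0 + 2 * h * -(L / 8)) := by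
    rw [← exp_add]; congr 1; ring
  have e2 : exp (-(L * (1 - h) / 2)) =
      exp (-(L * h / 4)) * exp ((1 - 2 * h) * -(L / 2) + 2 * h * -(L / 8)) := by
    rw [← exp_add]; congr 1; ring
  rw [e1, e2, mul_left_comm, ← mul_add]
  refine mul_le_mul_of_nonneg_left ?_ (exp_pos _).le
  have e3 := exp_pos (-(L / 2))
  nlinarith

lemma phi_low (L ε : ℝ) (hL0 : 0 ≤ L) (hL : 5 * exp (-(L / 8)) ≤ 1) (hε : 0 ≤ ε) (j : ℕ)
    (hj : ε * j ≤ 1 / 2) (hj2 : (j + 1) * exp (-(L / 2)) ≤ 2) :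
    phi L ((1 - ε) / 2) j ≤ exp ((-(L * ε / 8) + 4 * exp (-(L / 2))) * j) := by
  rcases Nat.eq_zero_or_pos j with rfl | hpos
  · simp [phi_zero]
  have hj1 : (1 : ℝ) ≤ j := by exact_mod_cast hpos
  have hεj : 0 ≤ ε * j := by positivity
  obtain ⟨κ₀, h, hh, h0, h1⟩ : ∃ (κ₀ : ℕ) (h : ℝ), |(1 - ε) / 2 * j - κ₀| = h ∧ ε * j / 2 ≤ h ∧
      h ≤ 1 / 2 := by
    rcases Nat.even_or_odd' j with ⟨i, hi | hi⟩
    · refine ⟨i, ε * j / 2, ?_, le_rfl, by linarith⟩
      have : (j : ℝ) = 2 * i := by exact_mod_cast hi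
      rw [show (1 - ε) / 2 * j - i = -(ε * j / 2) by rw [this]; ring, abs_neg,
        abs_of_nonneg (by linarith)]
    · refine ⟨i, 1 / 2 - ε * j / 2, ?_, by linarith, by linarith⟩
      have : (j : ℝ) = 2 * i + 1 := by exact_mod_cast hi
      rw [show (1 - ε) / 2 * j - i = 1 / 2 - ε * j / 2 by rw [this]; ring,
        abs_of_nonneg (by linarith)]
  have h2 := phi_near L _ hL0 j κ₀ h hh
  have h3 := convex_step L h (by linarith) h1 hL
  have e1 : exp (-(L * (2 - h) / 2)) = exp (-(L / 2)) * exp (-(L * (1 - h) / 2)) := by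
    rw [← exp_add]; congr 1; ring
  have e2 := exp_pos (-(L * (1 - h) / 2))
  have e3 := exp_pos (-(L / 2))
  have h4 : (j + 1) * exp (-(L * (2 - h) / 2)) ≤ 2 * exp (-(L * (1 - h) / 2)) := by
    rw [e1, ← mul_assoc]
    gcongr
  have h5 : 1 + 4 * exp (-(L / 2)) ≤ exp (4 * exp (-(L / 2)) * j) := by
    have := add_one_le_exp (4 * exp (-(L / 2)) * j)
    nlinarith
  have h6 : exp (-(L * h / 4)) ≤ exp (-(L * ε / 8) * j) := by
    rw [exp_le_exp]
    have := mul_le_mul_of_nonneg_left h0 hL0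
    nlinarith
  calc phi L ((1 - ε) / 2) j ≤ exp (-(L * h / 4)) * (1 + 4 * exp (-(L / 2))) := by linarith
    _ ≤ exp (-(L * ε / 8) * j) * exp (4 * exp (-(L / 2)) * j) := by gcongr
    _ = _ := by rw [← exp_add]; congr 1; ring

lemma phi_one_le (L ε : ℝ) (hL0 : 0 ≤ L) (hL : 2 * exp (-(L / 16)) ≤ 1) (hε : 0 ≤ ε)
    (hε1 : ε ≤ 1 / 4) : phi L ((1 - ε) / 2) 1 ≤ exp (-(L / 8)) := by
  simp only [phi, Finset.sum_range_succ, Finset.range_zero, Finset.sum_empty, zero_add,
    Nat.cast_one, mul_one, Nat.cast_zero, sub_zero]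
  rw [abs_of_nonneg (by linarith), abs_of_nonpos (by linarith)]
  have h1 : exp (-(L * ((1 - ε) / 2) / 2)) ≤ exp (-(L / 16)) * exp (-(L / 8)) := by
    rw [← exp_add, exp_le_exp]; nlinarith
  have h2 : exp (-(L * -((1 - ε) / 2 - 1) / 2)) ≤ exp (-(L / 16)) * exp (-(L / 8)) := by
    rw [← exp_add, exp_le_exp]; nlinarith
  have e3 := exp_pos (-(L / 8))
  nlinarith

/-- the layer pattern -/
def lwt (n k l : ℕ) : ℕ × ℕ := (k * (l + 1) / n - k * l / n, 1 - (k * (l + 1) / n - k * l / n))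

lemma div_succ_bounds (n k l : ℕ) (hn : 0 < n) (hk : k ≤ n) :
    k * l / n ≤ k * (l + 1) / n ∧ k * (l + 1) / n ≤ k * l / n + 1 := by
  constructor
  · exact Nat.div_le_div_right (Nat.mul_le_mul_left _ (Nat.le_succ _))
  · rw [← Nat.add_div_right _ hn]
    exact Nat.div_le_div_right (by nlinarith)

lemma lwt_sum (n k l : ℕ) (hn : 0 < n) (hk : k ≤ n) : (lwt n k l).1 + (lwt n k l).2 = 1 := by
  have := div_succ_bounds n k l hn hk
  simp only [lwt]; omega

lemma sum_lwt (n k : ℕ) (hn : 0 < n) (hk : k ≤ n) (m : ℕ) :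
    (∑ l ∈ range m, lwt n k l).1 = k * m / n ∧
      (∑ l ∈ range m, lwt n k l).1 + (∑ l ∈ range m, lwt n k l).2 = m := by
  induction m with
  | zero => simp
  | succ m ih =>
    have h1 := div_succ_bounds n k m hn hk
    have h2 := lwt_sum n k m hn hk
    rw [Finset.sum_range_succ, Prod.fst_add, Prod.snd_add]
    refine ⟨?_, by omega⟩
    rw [ih.1]
    simp only [lwt]; omega

lemma Hh_lwt (n k l : ℕ) (hn : 0 < n) (hk : k ≤ n) (α : ℝ) :
    Hh α (lwt n k l) = α - ((k * (l + 1) / n : ℕ) - (k * l / n : ℕ)) := by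
  have h1 := div_succ_bounds n k l hn hk
  have h2 : ((lwt n k l).1 : ℝ) + (lwt n k l).2 = 1 := by exact_mod_cast lwt_sum n k l hn hk
  rw [Hh, h2, mul_one, lwt, Nat.cast_sub h1.1]

lemma div_real_bounds (n k l : ℕ) (hn : 0 < n) :
    ((k * l / n : ℕ) : ℝ) ≤ (k : ℝ) / n * l ∧ (k : ℝ) / n * l - 1 ≤ ((k * l / n : ℕ) : ℝ) := by
  have hn' : (0 : ℝ) < n := by exact_mod_cast hn
  have h1 : ((k * l / n : ℕ) : ℝ) * n ≤ k * l := by exact_mod_cast Nat.div_mul_le_self (k * l) n
  have h2 : (k : ℝ) * l ≤ (((k * l / n : ℕ) : ℝ) + 1) * n := by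
    have : k * l ≤ (k * l / n + 1) * n := by
      have := Nat.lt_mul_div_succ (k * l) hn
      rw [mul_comm n] at this
      exact this.le
    exact_mod_cast this
  rw [div_mul_eq_mul_div]
  constructor
  · rw [le_div_iff₀ hn']; exact h1
  · rw [sub_le_iff_le_add, div_le_iff₀ hn']; exact h2

end Crest.Agent.R327
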