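import Mathlib
import Crest.Agent.R327.Phi
import Crest.Agent.R327.Lower2

/-! Assembly of the depth-five lower bound. -/

set_option autoImplicit false
set_option linter.unusedSectionVars false

namespace Crest.Agent.R327

open Finset Real Crest.ArithCircuit

lemma le_of_sq_le_sq₀' {a b : ℝ} (hb : 0 ≤ b) (h : a ^ 2 ≤ b ^ 2) : a ≤ b :=
  le_trans (le_abs_self a) (by simpa [abs_of_nonneg hb] using sq_le_sq.1 h)

lemma final_real (L r g n cP cR sz : ℝ) (N : ℕ) (hr : 1 ≤ r) (hn : n = r ^ 2) (hN : (N : ℝ) ≤ n)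
    (hL : 400 ≤ L) (hg : r / 2 ≤ g) (hP : 0 ≤ cP) (hR : 0 ≤ cR) (hsz : cP + cR + 1 ≤ sz)
    (h : 1 ≤ cR * (exp (-(L * g / 8) + 4 * r) + cP * ((n + 1) * exp (-(L * r / 32)))) *
      ((1 + r⁻¹) ^ N * (1 + r))) : exp (L * (r / 400)) ≤ sz := by
  have hr0 : 0 < r := by linarith
  have h1 : 1 + r ≤ exp r := by linarith [add_one_le_exp r]
  have h2 : (1 + r⁻¹) ^ N ≤ exp r := by
    calc (1 + r⁻¹) ^ N ≤ exp r⁻¹ ^ N := by
          gcongr
          linarith [add_one_le_exp r⁻¹]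
      _ = exp (N * r⁻¹) := by rw [← exp_nat_mul]
      _ ≤ exp r := by
          rw [exp_le_exp, ← div_eq_mul_inv, div_le_iff₀ hr0]
          nlinarith
  have h3 : n + 1 ≤ exp (4 * r) := by
    calc n + 1 ≤ (1 + r) ^ 2 := by nlinarith
      _ ≤ exp r ^ 2 := by gcongr
      _ = exp (2 * r) := by rw [← exp_nat_mul]; norm_num
      _ ≤ exp (4 * r) := by rw [exp_le_exp]; linarith
  have h4 : exp (-(L * g / 8) + 4 * r) ≤ exp (4 * r) * exp (-(L * r / 32)) := by
    rw [← exp_add, exp_le_exp]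
    nlinarith
  have h5 : cR * (exp (-(L * g / 8) + 4 * r) + cP * ((n + 1) * exp (-(L * r / 32)))) *
      ((1 + r⁻¹) ^ N * (1 + r)) ≤
      sz * (sz * (exp (4 * r) * exp (-(L * r / 32)))) * (exp r * exp r) := by
    have : exp (-(L * g / 8) + 4 * r) + cP * ((n + 1) * exp (-(L * r / 32))) ≤
        sz * (exp (4 * r) * exp (-(L * r / 32))) := by
      calc _ ≤ exp (4 * r) * exp (-(L * r / 32)) + cP * (exp (4 * r) * exp (-(L * r / 32))) := by
            gcongr
        _ = (cP + 1) * (exp (4 * r) * exp (-(L * r / 32))) := by ring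
        _ ≤ _ := by gcongr; linarith
    have hn0 : 0 ≤ n := by rw [hn]; positivity
    have hsz0 : 0 ≤ sz := by linarith
    gcongr
    linarith
  have h6 : exp (4 * r) * exp (-(L * r / 32)) * (exp r * exp r) * exp (L * (r / 400)) ^ 2 ≤ 1 := by
    rw [← exp_nat_mul, ← exp_add, ← exp_add, ← exp_add, ← exp_add, exp_le_one_iff]
    push_cast
    nlinarith
  have hsz0 : 0 ≤ sz := by linarith
  refine le_of_sq_le_sq₀' hsz0 ?_
  have h7 := h.trans h5
  have h8 := exp_pos (L * (r / 400))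
  generalize exp (L * (r / 400)) = E at *
  generalize exp (4 * r) * exp (-(L * r / 32)) = A at *
  generalize exp r * exp r = A' at *
  calc E ^ 2 = 1 * E ^ 2 := by ring
    _ ≤ sz * (sz * A) * A' * E ^ 2 := by gcongr
    _ = sz ^ 2 * (A * A' * E ^ 2) := by ring
    _ ≤ sz ^ 2 * 1 := by gcongr
    _ = sz ^ 2 := by ring

lemma mu_imm_ge' (n N : ℕ) (hnN : n = N + 1) (lw : ℕ → ℕ × ℕ) (L α : ℝ) (K : Type*) [Field K]
    [CharZero K] (r : ℝ) (hr : 0 < r)
    (hV : (n : ℝ) = r ^ 2) (η : ℕ → ℝ) (h0 : 1 ≤ η 0)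
    (hω : ∀ l < n, ww L α (lw l) * η l = η (l + 1))
    (hη : ∀ l ≤ n, η l ≤ r ∧ 1 ≤ r * η l) :
    ZZ (fun x : Fin n × Fin n × Fin n => lw x.1) L α ≤
      mu (fun x : Fin n × Fin n × Fin n => lw x.1) L α
        (∑ l : Fin n, lw l) (imm K n) * ((1 + r⁻¹) ^ N * (1 + r)) := by
  subst hnN
  exact mu_imm_ge N lw L α K r hr hV η h0 hω hη

theorem imm_lower_bound (n : ℕ) (hn : exp 400 ≤ (n : ℝ)) (K : Type*) [Field K] [CharZero K]
    (Lf B P S R : Type*) [Fintype Lf] [Fintype B] [Fintype P] [Fintype S] [Fintype R]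
    (C : SPSPS K (Fin n × Fin n × Fin n) Lf B P S R) (hC : C.IsHomogeneous)
    (hout : C.output = imm K n) : (n : ℝ) ^ (√n / 400) ≤ (C.size : ℝ) := by
  have h401 : (401 : ℝ) ≤ n := by linarith [add_one_le_exp 400]
  have h401' : 401 ≤ n := by exact_mod_cast h401
  obtain ⟨N, hnN⟩ : ∃ N, n = N + 1 := ⟨n - 1, by omega⟩
  have hn0 : (0 : ℝ) < n := by linarith
  have hnpos : 0 < n := by omega
  obtain ⟨r, hr⟩ : ∃ r, r = √(n : ℝ) := ⟨_, rfl⟩
  rw [← hr]
  have hr2 : (n : ℝ) = r ^ 2 := by rw [hr, sq_sqrt hn0.le]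
  have hr20 : 20 ≤ r := by
    rw [hr, le_sqrt (by norm_num) hn0.le]; linarith
  have hr0 : 0 < r := by linarith
  obtain ⟨L, hL⟩ : ∃ L, L = log (n : ℝ) := ⟨_, rfl⟩
  have hL400 : 400 ≤ L := by rw [hL, le_log_iff_exp_le hn0]; exact hn
  have hL0 : 0 ≤ L := by linarith
  have hexpL : exp L = n := by rw [hL, exp_log hn0]
  have hq : exp (-(L / 2)) = r⁻¹ := by
    rw [exp_neg, exp_half, hexpL, hr]
  -- parameters
  obtain ⟨s, hs⟩ : ∃ s, s = Nat.sqrt n := ⟨_, rfl⟩
  have hs1 : s * s ≤ n := hs ▸ Nat.sqrt_le n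
  have hs2 : n < (s + 1) * (s + 1) := hs ▸ Nat.lt_succ_sqrt n
  have hsr : (s : ℝ) ≤ r := by
    rw [hr, le_sqrt (by positivity) hn0.le, sq]; exact_mod_cast hs1
  have hsr2 : r ≤ s + 1 := by
    rw [hr, sqrt_le_left (by positivity), sq]; exact_mod_cast hs2.le
  have hsn : s ≤ n := hs ▸ Nat.sqrt_le_self n
  obtain ⟨k, hk⟩ : ∃ k, k = (n - s) / 2 := ⟨_, rfl⟩
  obtain ⟨g, hg⟩ : ∃ g, g = n - 2 * k := ⟨_, rfl⟩
  have hkn : k ≤ n := by omega
  have hg1 : s ≤ g := by omega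
  have hg2 : g ≤ s + 1 := by omega
  have hg3 : (g : ℝ) = n - 2 * k := by
    rw [hg, Nat.cast_sub (by omega)]; push_cast; ring
  have hg1' : r / 2 ≤ g := by
    have : (s : ℝ) ≤ g := by exact_mod_cast hg1
    linarith
  have hg2' : (g : ℝ) ≤ r + 1 := by
    have : (g : ℝ) ≤ s + 1 := by exact_mod_cast hg2
    linarith
  obtain ⟨ε, hε⟩ : ∃ ε : ℝ, ε = g / n := ⟨_, rfl⟩
  have hε0 : 0 ≤ ε := by rw [hε]; positivity
  have hε1 : ε ≤ 1 / 4 := by
    rw [hε, div_le_iff₀ hn0, hr2]; nlinarith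
  obtain ⟨α, hαdef⟩ : ∃ α : ℝ, α = (1 - ε) / 2 := ⟨_, rfl⟩
  have hα : α = (k : ℝ) / n := by
    rw [hαdef, hε, hg3]; field_simp; ring
  -- lower bound
  have hlow := mu_imm_ge' n N hnN (lwt n k) L α K r hr0 hr2
    (fun l => r * exp (L * (((k * l / n : ℕ) : ℝ) - α * l))) (by simp; linarith)
    (fun l _ => by
      rw [ww, Hh_lwt n k l hnpos hkn, mul_left_comm, ← exp_add]
      congr 2
      push_cast
      ring)
    (fun l _ => by
      obtain ⟨b1, b2⟩ := div_real_bounds n k l hnpos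
      rw [← hα] at b1 b2
      constructor
      · have : exp (L * (((k * l / n : ℕ) : ℝ) - α * l)) ≤ 1 := by
          rw [exp_le_one_iff]
          exact mul_nonpos_of_nonneg_of_nonpos hL0 (by linarith)
        nlinarith
      · have h1 : exp (-L) ≤ exp (L * (((k * l / n : ℕ) : ℝ) - α * l)) := by
          rw [exp_le_exp]; nlinarith
        have h2 : r * (r * exp (-L)) = 1 := by
          rw [exp_neg, hexpL, hr2]; field_simp
        calc (1 : ℝ) = r * (r * exp (-L)) := h2.symm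
          _ ≤ _ := by gcongr)
  -- upper bound
  obtain ⟨wt, hwt⟩ : ∃ wt, wt = fun x : Fin n × Fin n × Fin n => lwt n k x.1 := ⟨_, rfl⟩
  obtain ⟨km, hkm⟩ : ∃ km, km = ∑ l : Fin n, lwt n k l := ⟨_, rfl⟩
  rw [← hwt, ← hkm] at hlow
  have hkm' : km = ∑ l ∈ range n, lwt n k l :=
    hkm.trans (Fin.sum_univ_eq_sum_range (fun l => lwt n k l) n)
  obtain ⟨hkm1, hkm2⟩ := sum_lwt n k hnpos hkn n
  rw [← hkm', Nat.mul_div_cancel _ hnpos] at hkm1
  rw [← hkm'] at hkm2
  have hH : Hh α km = 0 := by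
    have : (km.1 : ℝ) + km.2 = n := by exact_mod_cast hkm2
    rw [Hh, this, hkm1, hα]; field_simp; ring
  have e8 : 5 * exp (-(L / 8)) ≤ 1 := by
    rw [exp_neg, ← div_eq_mul_inv, div_le_one (exp_pos _)]
    linarith [add_one_le_exp (L / 8)]
  have e16 : 2 * exp (-(L / 16)) ≤ 1 := by
    rw [exp_neg, ← div_eq_mul_inv, div_le_one (exp_pos _)]
    linarith [add_one_le_exp (L / 16)]
  have hup := mu_output_le C hC wt L α km (fun x => hwt ▸ lwt_sum n k _ hnpos hkn) hH hL0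
    (fun j => ε * j ≤ 1 / 2) (-(L * ε / 8) + 4 * exp (-(L / 2))) (exp (-(L * r / 32)))
    (exp_pos _).le
    (fun j hj => hαdef ▸ phi_low L ε hL0 e8 hε0 j hj (by
      rw [hq, ← div_eq_mul_inv, div_le_iff₀ hr0]
      rw [hε, div_mul_eq_mul_div, div_le_iff₀ hn0, hr2] at hj
      have hj0 : (0 : ℝ) ≤ j := Nat.cast_nonneg j
      have : (j : ℝ) ≤ r := by
        by_contra hcon
        push Not at hcon
        nlinarith
      linarith))
    (fun j hj => by
      push Not at hj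
      rw [hε, div_mul_eq_mul_div, lt_div_iff₀ hn0, hr2] at hj
      have hj0 : (0 : ℝ) ≤ j := Nat.cast_nonneg j
      have h4 : r / 4 ≤ (j : ℝ) := by
        by_contra hcon
        push Not at hcon
        nlinarith
      calc phi L α 1 ^ j ≤ exp (-(L / 8)) ^ j := by
            gcongr
            · exact phi_nonneg _ _ _
            · exact hαdef ▸ phi_one_le L ε hL0 e16 hε0 hε1
        _ = exp (j * -(L / 8)) := by rw [← exp_nat_mul]
        _ ≤ _ := by rw [exp_le_exp]; nlinarith)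
  rw [hkm2, hout] at hup
  have hβ : (-(L * ε / 8) + 4 * exp (-(L / 2))) * n = -(L * g / 8) + 4 * r := by
    rw [hq, hε, hr2]; field_simp
  rw [hβ] at hup
  have hZ := ZZ_pos wt L α
  rw [rpow_def_of_pos hn0, ← hL]
  refine final_real L r g n (Fintype.card P) (Fintype.card R) _ N (by linarith) hr2
    (by rw [hnN]; push_cast; linarith) hL400 hg1' (Nat.cast_nonneg _) (Nat.cast_nonneg _) ?_ ?_
  · simp only [SPSPS.size]
    push_cast
    have := Nat.cast_nonneg (α := ℝ) (Fintype.card Lf)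
    have := Nat.cast_nonneg (α := ℝ) (Fintype.card B)
    have := Nat.cast_nonneg (α := ℝ) (Fintype.card S)
    linarith
  · have h1 := hlow.trans (mul_le_mul_of_nonneg_right hup (by positivity))
    refine le_of_mul_le_mul_left (a := ZZ wt L α) ?_ hZ
    rw [mul_one]
    refine h1.trans (le_of_eq ?_)
    ring

end Crest.Agent.R327
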