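import Mathlib
import Crest.Prelude.Def_SPSPS
import Crest.Agent.R327.Paths

/-! The explicit depth-five circuit for iterated matrix multiplication. -/

set_option autoImplicit false
set_option linter.unusedSectionVars false

namespace Crest.Agent.R327

open Finset MvPolynomial Crest.ArithCircuit

section Reindex

variable {K ι L B P S R L' B' P' S' R' : Type*} [CommSemiring K]

/-- transport of a circuit along bijections of its layers -/
def reindex (C : SPSPS K ι L B P S R) (eL : L ≃ L') (eB : B ≃ B') (eP : P ≃ P') (eS : S ≃ S')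
    (eR : R ≃ R') : SPSPS K ι L' B' P' S' R' where
  leaf l := C.leaf (eL.symm l)
  inB b := (C.inB (eB.symm b)).map eL.toEmbedding
  coefB b l := C.coefB (eB.symm b) (eL.symm l)
  inP p := (C.inP (eP.symm p)).map eB
  inS s := (C.inS (eS.symm s)).map eP.toEmbedding
  coefS s p := C.coefS (eS.symm s) (eP.symm p)
  inR r := (C.inR (eR.symm r)).map eS
  inOut := C.inOut.map eR.toEmbedding
  coefOut r := C.coefOut (eR.symm r)

variable (C : SPSPS K ι L B P S R) (eL : L ≃ L') (eB : B ≃ B') (eP : P ≃ P') (eS : S ≃ S')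
    (eR : R ≃ R')

lemma reindex_valB (b : B') : (reindex C eL eB eP eS eR).valB b = C.valB (eB.symm b) := by
  simp [SPSPS.valB, SPSPS.leafVal, reindex]

lemma reindex_valP (p : P') : (reindex C eL eB eP eS eR).valP p = C.valP (eP.symm p) := by
  have : (reindex C eL eB eP eS eR).inP p = (C.inP (eP.symm p)).map eB := rfl
  simp [SPSPS.valP, this, reindex_valB]

lemma reindex_valS (s : S') : (reindex C eL eB eP eS eR).valS s = C.valS (eS.symm s) := by
  simp only [SPSPS.valS, reindex_valP]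
  simp [reindex]

lemma reindex_valR (r : R') : (reindex C eL eB eP eS eR).valR r = C.valR (eR.symm r) := by
  have : (reindex C eL eB eP eS eR).inR r = (C.inR (eR.symm r)).map eS := rfl
  simp [SPSPS.valR, this, reindex_valS]

lemma reindex_output : (reindex C eL eB eP eS eR).output = C.output := by
  simp only [SPSPS.output, reindex_valR]
  simp [reindex]

lemma reindex_leafDeg (l : L') : (reindex C eL eB eP eS eR).leafDeg l = C.leafDeg (eL.symm l) :=
  rfl

lemma reindex_degB (b : B') : (reindex C eL eB eP eS eR).degB b = C.degB (eB.symm b) := by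
  have : (reindex C eL eB eP eS eR).inB b = (C.inB (eB.symm b)).map eL.toEmbedding := rfl
  rw [SPSPS.degB, this, Finset.sup_map]
  congr 1
  funext l
  simp [reindex_leafDeg]

lemma reindex_degP (p : P') : (reindex C eL eB eP eS eR).degP p = C.degP (eP.symm p) := by
  have : (reindex C eL eB eP eS eR).inP p = (C.inP (eP.symm p)).map eB := rfl
  simp [SPSPS.degP, this, reindex_degB]

lemma reindex_degS (s : S') : (reindex C eL eB eP eS eR).degS s = C.degS (eS.symm s) := by
  have : (reindex C eL eB eP eS eR).inS s = (C.inS (eS.symm s)).map eP.toEmbedding := rfl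
  rw [SPSPS.degS, this, Finset.sup_map]
  congr 1
  funext l
  simp [reindex_degP]

lemma reindex_degR (r : R') : (reindex C eL eB eP eS eR).degR r = C.degR (eR.symm r) := by
  have : (reindex C eL eB eP eS eR).inR r = (C.inR (eR.symm r)).map eS := rfl
  simp [SPSPS.degR, this, reindex_degS]

lemma reindex_degOut : (reindex C eL eB eP eS eR).degOut = C.degOut := by
  have : (reindex C eL eB eP eS eR).inOut = C.inOut.map eR.toEmbedding := rfl
  rw [SPSPS.degOut, this, Finset.sup_map]
  congr 1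
  funext l
  simp [reindex_degR]

lemma reindex_hom (hC : C.IsHomogeneous) : (reindex C eL eB eP eS eR).IsHomogeneous := by
  refine ⟨fun b l hl => ?_, fun s p hp => ?_, fun r hr => ?_⟩
  · rw [reindex_leafDeg, reindex_degB]
    exact hC.1 _ _ (by simpa [reindex] using hl)
  · rw [reindex_degP, reindex_degS]
    exact hC.2.1 _ _ (by simpa [reindex] using hp)
  · rw [reindex_degR, reindex_degOut]
    exact hC.2.2 _ (by simpa [reindex] using hr)

lemma exists_fin_circuit [Fintype L] [Fintype B] [Fintype P] [Fintype S] [Fintype R]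
    (hC : C.IsHomogeneous) :
    ∃ (l b p s r : ℕ) (C' : SPSPS K ι (Fin l) (Fin b) (Fin p) (Fin s) (Fin r)),
      C'.IsHomogeneous ∧ C'.output = C.output ∧ C'.size = C.size :=
  ⟨_, _, _, _, _, reindex C (Fintype.equivFin L) (Fintype.equivFin B) (Fintype.equivFin P)
    (Fintype.equivFin S) (Fintype.equivFin R), reindex_hom _ _ _ _ _ _ hC,
    reindex_output _ _ _ _ _ _, by simp [SPSPS.size]⟩

end Reindex

section Blocks

lemma ofFn_eq_range_map {α : Type*} (a : ℕ) (g : ℕ → α) :
    List.ofFn (fun i : Fin a => g i) = (List.range a).map g := by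
  apply List.ext_getElem <;> simp

lemma blocks_prod {M : Type*} [Monoid M] (A : ℕ → M) (n t m : ℕ) :
    ((List.range m).map (fun β => ((List.range (min t (n - β * t))).map
      (fun l => A (β * t + l))).prod)).prod = ((List.range (min (m * t) n)).map A).prod := by
  induction m with
  | zero => simp
  | succ m ih =>
    rw [List.range_succ, List.map_append, List.prod_append, ih]
    simp only [List.map_cons, List.map_nil, List.prod_cons, List.prod_nil, mul_one]
    by_cases h : m * t ≤ n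
    · have e1 : min ((m + 1) * t) n = m * t + min t (n - m * t) := by
        rw [add_mul, one_mul]; omega
      rw [e1, min_eq_left h, List.range_add, List.map_append, List.prod_append, List.map_map]
      rfl
    · have e1 : min ((m + 1) * t) n = n := by
        rw [add_mul, one_mul]; omega
      have e2 : min (m * t) n = n := by omega
      have e3 : min t (n - m * t) = 0 := by omega
      rw [e1, e2, e3]
      simp

/-- length of a block -/
def blen (n t β : ℕ) : ℕ := min t (n - β * t)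

/-- layer number inside a block -/
def blayer (n t β : ℕ) (l : Fin (blen n t β)) : Fin n :=
  ⟨β * t + l, by have := l.2; unfold blen at this; omega⟩

lemma blocks_prod_fin {M : Type*} [Monoid M] (n t r : ℕ) (h : n ≤ r * t) (A : Fin n → M) :
    (List.ofFn (fun β : Fin r => (List.ofFn (fun l : Fin (blen n t β) =>
      A (blayer n t β l))).prod)).prod = (List.ofFn A).prod := by
  set A' : ℕ → M := fun m => if h : m < n then A ⟨m, h⟩ else 1 with hA'
  have e0 : ∀ i : Fin n, A i = A' i := fun i => by simp [hA']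
  have e1 : List.ofFn A = (List.range n).map A' := by
    rw [← ofFn_eq_range_map]; congr 1; funext i; exact e0 i
  have e2 : ∀ β : ℕ, List.ofFn (fun l : Fin (blen n t β) => A (blayer n t β l)) =
      (List.range (min t (n - β * t))).map (fun l => A' (β * t + l)) := by
    intro β
    rw [← ofFn_eq_range_map]
    simp only [e0]
    rfl
  simp only [e2]
  rw [ofFn_eq_range_map r (fun β => ((List.range (min t (n - β * t))).map
      (fun l => A' (β * t + l))).prod), blocks_prod, e1, min_eq_right h]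

end Blocks

section Circ

variable (K : Type*) [CommSemiring K] (N t r : ℕ)

/-- the block circuit -/
noncomputable def blockCirc : SPSPS K (Fin (N + 1) × Fin (N + 1) × Fin (N + 1))
    (Fin (N + 1) × Fin (N + 1) × Fin (N + 1)) (Fin (N + 1) × Fin (N + 1) × Fin (N + 1))
    (Σ β : Fin r, (Fin (blen (N + 1) t β + 1) → Fin (N + 1)))
    (Fin r × Fin (N + 1) × Fin (N + 1))
    {ρ : Fin (r + 1) → Fin (N + 1) // ρ ∈ paths r (0 : Fin (N + 1)) 0} where
  leaf := Sum.inl
  inB b := {b}
  coefB _ _ := 1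
  inP p := (univ : Finset (Fin (blen (N + 1) t p.1))).val.map
    (fun l => (blayer (N + 1) t p.1 l, p.2 l.castSucc, p.2 l.succ))
  inS s := (paths (blen (N + 1) t s.1) s.2.1 s.2.2).map
    (Function.Embedding.sigmaMk (β := fun β : Fin r => Fin (blen (N + 1) t β + 1) → Fin (N + 1)) s.1)
  coefS _ _ := 1
  inR ρ := (univ : Finset (Fin r)).val.map (fun β => (β, ρ.1 β.castSucc, ρ.1 β.succ))
  inOut := univ
  coefOut _ := 1

lemma blockCirc_valB (b : Fin (N + 1) × Fin (N + 1) × Fin (N + 1)) :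
    (blockCirc K N t r).valB b = X b := by
  simp [SPSPS.valB, SPSPS.leafVal, blockCirc]

lemma blockCirc_degB (b : Fin (N + 1) × Fin (N + 1) × Fin (N + 1)) :
    (blockCirc K N t r).degB b = 1 := by
  simp [SPSPS.degB, SPSPS.leafDeg, blockCirc]

lemma blockCirc_valP (β : Fin r) (π : Fin (blen (N + 1) t β + 1) → Fin (N + 1)) :
    (blockCirc K N t r).valP ⟨β, π⟩ =
      ∏ l : Fin (blen (N + 1) t β), X (blayer (N + 1) t β l, π l.castSucc, π l.succ) := by
  rw [SPSPS.valP, Finset.prod_eq_multiset_prod]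
  simp only [funext (blockCirc_valB K N t r)]
  simp only [blockCirc, Multiset.map_map, Function.comp_def]

lemma blockCirc_degP (p : Σ β : Fin r, (Fin (blen (N + 1) t β + 1) → Fin (N + 1))) :
    (blockCirc K N t r).degP p = blen (N + 1) t p.1 := by
  rw [SPSPS.degP]
  simp only [funext (blockCirc_degB K N t r)]
  simp [blockCirc, Function.comp_def]

lemma blockCirc_valS (β : Fin r) (i j : Fin (N + 1)) :
    (blockCirc K N t r).valS (β, i, j) = (List.ofFn (fun l : Fin (blen (N + 1) t β) =>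
      varMatrix K (N + 1) (blayer (N + 1) t β l))).prod i j := by
  rw [prod_ofFn_apply, SPSPS.valS]
  have : (blockCirc K N t r).inS (β, i, j) = (paths (blen (N + 1) t β) i j).map
    (Function.Embedding.sigmaMk (β := fun β : Fin r => Fin (blen (N + 1) t β + 1) → Fin (N + 1)) β)
    := rfl
  rw [this, Finset.sum_map]
  refine Finset.sum_congr rfl fun π _ => ?_
  rw [Function.Embedding.sigmaMk_apply, blockCirc_valP]
  simp [blockCirc, varMatrix]

lemma blockCirc_degS (hlen : ∀ β < r, 0 < blen (N + 1) t β) (β : Fin r) (i j : Fin (N + 1)) :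
    (blockCirc K N t r).degS (β, i, j) = blen (N + 1) t β := by
  have : (blockCirc K N t r).inS (β, i, j) = (paths (blen (N + 1) t β) i j).map
    (Function.Embedding.sigmaMk (β := fun β : Fin r => Fin (blen (N + 1) t β + 1) → Fin (N + 1)) β)
    := rfl
  rw [SPSPS.degS, this, Finset.sup_map]
  have hne : (paths (blen (N + 1) t β) i j).Nonempty := by
    have := hlen β β.2
    generalize blen (N + 1) t β = d at this
    obtain ⟨d, rfl⟩ : ∃ d', d = d' + 1 := ⟨d - 1, by omega⟩
    rw [← Finset.card_pos, card_paths]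
    simp
  refine Eq.trans ?_ (Finset.sup_const hne (blen (N + 1) t β))
  congr 1
  funext π
  simp [blockCirc_degP]

lemma blockCirc_degR (hlen : ∀ β < r, 0 < blen (N + 1) t β)
    (ρ : {ρ : Fin (r + 1) → Fin (N + 1) // ρ ∈ paths r (0 : Fin (N + 1)) 0}) :
    (blockCirc K N t r).degR ρ = ∑ β : Fin r, blen (N + 1) t β := by
  have : (blockCirc K N t r).inR ρ =
    (univ : Finset (Fin r)).val.map (fun β => (β, ρ.1 β.castSucc, ρ.1 β.succ)) := rfl
  rw [SPSPS.degR, this, Multiset.map_map, Finset.sum_eq_multiset_sum]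
  simp only [Function.comp_def, blockCirc_degS K N t r hlen]

lemma blockCirc_hom (hlen : ∀ β < r, 0 < blen (N + 1) t β) :
    (blockCirc K N t r).IsHomogeneous := by
  refine ⟨fun b l hl => ?_, fun s p hp => ?_, fun ρ hρ => ?_⟩
  · rw [blockCirc_degB]; rfl
  · obtain ⟨β, i, j⟩ := s
    rw [blockCirc_degS K N t r hlen, blockCirc_degP]
    obtain ⟨π, _, rfl⟩ := Finset.mem_map.1 hp
    rfl
  · rw [SPSPS.degOut, funext (blockCirc_degR K N t r hlen), Finset.sup_const ⟨ρ, hρ⟩]

lemma blockCirc_output (h : N + 1 ≤ r * t) : (blockCirc K N t r).output = imm K (N + 1) := by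
  rw [imm, ← blocks_prod_fin (N + 1) t r h, prod_ofFn_apply, SPSPS.output,
    ← Finset.sum_coe_sort (paths r (0 : Fin (N + 1)) 0)]
  refine Finset.sum_congr rfl fun ρ _ => ?_
  have : (blockCirc K N t r).inR ρ =
    (univ : Finset (Fin r)).val.map (fun β => (β, ρ.1 β.castSucc, ρ.1 β.succ)) := rfl
  rw [SPSPS.valR, this, Multiset.map_map, Finset.prod_eq_multiset_prod]
  simp only [Function.comp_def, blockCirc_valS]
  simp [blockCirc]

lemma blockCirc_size (hr : 0 < r) : (blockCirc K N t r).size ≤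
    2 * (N + 1) ^ 3 + r * (N + 1) ^ 2 + r * (N + 1) ^ (t + 1) + (N + 1) ^ (r - 1) + 1 := by
  obtain ⟨r, rfl⟩ : ∃ r', r = r' + 1 := ⟨r - 1, by omega⟩
  simp only [SPSPS.size, Fintype.card_prod, Fintype.card_fin, Fintype.card_sigma, Fintype.card_fun,
    Fintype.card_coe, card_paths, Nat.add_sub_cancel]
  have : ∑ β : Fin (r + 1), (N + 1) ^ (blen (N + 1) t β + 1) ≤ (r + 1) * (N + 1) ^ (t + 1) := by
    have := Finset.sum_le_card_nsmul (univ : Finset (Fin (r + 1)))
      (fun β => (N + 1) ^ (blen (N + 1) t β + 1)) ((N + 1) ^ (t + 1)) (fun β _ =>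
        Nat.pow_le_pow_right (by omega) (by unfold blen; omega))
    simpa using this
  nlinarith

end Circ

lemma nat_size_bound (n t r : ℕ) (hn : 2 ≤ n) (ht : 2 ≤ t) (hr : r + 1 ≤ n) (hrt : r ≤ t) :
    2 * n ^ 3 + r * n ^ 2 + r * n ^ (t + 1) + n ^ (r - 1) + 1 ≤ n ^ (t + 3) := by
  obtain ⟨u, rfl⟩ : ∃ u, t = u + 2 := ⟨t - 2, by omega⟩
  have h1 : n ^ (r - 1) ≤ n ^ (u + 1) := Nat.pow_le_pow_right (by omega) (by omega)
  have hu : 1 ≤ n ^ u := Nat.one_le_pow _ _ (by omega)
  have e1 : n ^ (u + 1) = n ^ u * n := by ring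
  have e2 : n ^ (u + 2 + 1) = n ^ u * n ^ 3 := by ring
  have e3 : n ^ (u + 2 + 3) = n ^ u * n ^ 5 := by ring
  rw [e1] at h1
  rw [e2, e3]
  generalize n ^ u = a at *
  obtain ⟨m, rfl⟩ : ∃ m, n = m + 2 := ⟨n - 2, by omega⟩
  have hr' : r ≤ m + 1 := by omega
  have h2 : 2 * (m + 2) ^ 3 + (m + 1) * (m + 2) ^ 2 + (m + 1) * (m + 2) ^ 3 + (m + 2) + 1 ≤
      (m + 2) ^ 5 := by
    ring_nf
    nlinarith [Nat.zero_le m, Nat.zero_le (m ^ 2), Nat.zero_le (m ^ 3), Nat.zero_le (m ^ 4),
      Nat.zero_le (m ^ 5)]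
  calc _ ≤ a * (2 * (m + 2) ^ 3) + a * ((m + 1) * (m + 2) ^ 2) + (m + 1) * (a * (m + 2) ^ 3) +
        a * (m + 2) + a * 1 := by
        refine add_le_add (add_le_add (add_le_add (add_le_add ?_ ?_) ?_) h1) (by omega)
        · exact Nat.le_mul_of_pos_left _ hu
        · calc r * (m + 2) ^ 2 ≤ (m + 1) * (m + 2) ^ 2 := by gcongr
            _ ≤ _ := Nat.le_mul_of_pos_left _ hu
        · gcongr
    _ = a * (2 * (m + 2) ^ 3 + (m + 1) * (m + 2) ^ 2 + (m + 1) * (m + 2) ^ 3 + (m + 2) + 1) := by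
        ring
    _ ≤ _ := by gcongr

theorem imm_upper_bound (K : Type*) [Field K] (n : ℕ) (hn : 2 ≤ n) :
    ∃ (l b p s r : ℕ)
      (C : SPSPS K (Fin n × Fin n × Fin n) (Fin l) (Fin b) (Fin p) (Fin s) (Fin r)),
      C.IsHomogeneous ∧ C.output = imm K n ∧
        C.size ≤ 2 * n ^ 3 + ⌈(n : ℝ) / ⌈Real.sqrt n⌉₊⌉₊ * n ^ 2 +
          ⌈(n : ℝ) / ⌈Real.sqrt n⌉₊⌉₊ * n ^ (⌈Real.sqrt n⌉₊ + 1) +
          n ^ (⌈(n : ℝ) / ⌈Real.sqrt n⌉₊⌉₊ - 1) + 1 ∧
        (C.size : ℝ) ≤ (n : ℝ) ^ (Real.sqrt n + 4) := by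
  obtain ⟨t, ht⟩ : ∃ t, t = ⌈Real.sqrt n⌉₊ := ⟨_, rfl⟩
  obtain ⟨r, hr⟩ : ∃ r, r = ⌈(n : ℝ) / t⌉₊ := ⟨_, rfl⟩
  rw [← ht, ← hr]
  have hn2 : (2 : ℝ) ≤ n := by exact_mod_cast hn
  have hsq : Real.sqrt n ^ 2 = n := Real.sq_sqrt (by linarith)
  have hs1 : 1 < Real.sqrt n := by rw [Real.lt_sqrt (by norm_num)]; linarith
  have ht1 : Real.sqrt n ≤ t := ht ▸ Nat.le_ceil _
  have ht2 : (t : ℝ) < Real.sqrt n + 1 := ht ▸ Nat.ceil_lt_add_one (by linarith)
  have ht3 : 2 ≤ t := by
    have : (1 : ℝ) < t := by linarith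
    have : 1 < t := by exact_mod_cast this
    omega
  have ht0 : (0 : ℝ) < t := by linarith
  have hr1 : n ≤ r * t := by
    have : (n : ℝ) / t ≤ r := hr ▸ Nat.le_ceil _
    rw [div_le_iff₀ ht0] at this
    exact_mod_cast this
  have hr2 : ∀ β < r, β * t < n := by
    intro β hβ
    rw [hr, Nat.lt_ceil, lt_div_iff₀ ht0] at hβ
    exact_mod_cast hβ
  have hrt : r ≤ t := by
    rw [hr, Nat.ceil_le, div_le_iff₀ ht0]
    nlinarith
  have hr0 : 0 < r := by
    rcases Nat.eq_zero_or_pos r with h | h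
    · rw [h] at hr1; omega
    · exact h
  have hrn : r + 1 ≤ n := by
    have := hr2 (r - 1) (by omega)
    have h2 : (r - 1) * 2 ≤ (r - 1) * t := Nat.mul_le_mul_left _ ht3
    omega
  obtain ⟨N, rfl⟩ : ∃ N, n = N + 1 := ⟨n - 1, by omega⟩
  have hlen : ∀ β < r, 0 < blen (N + 1) t β := by
    intro β hβ
    have := hr2 β hβ
    unfold blen
    omega
  obtain ⟨l, b, p, s, r', C, h1, h2, h3⟩ :=
    exists_fin_circuit (blockCirc K N t r) (blockCirc_hom K N t r hlen)
  have h4 := blockCirc_size K N t r hr0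
  rw [← h3] at h4
  refine ⟨l, b, p, s, r', C, h1, h2.trans (blockCirc_output K N t r hr1), h4, ?_⟩
  have h5 := h4.trans (nat_size_bound (N + 1) t r hn ht3 hrn hrt)
  calc (C.size : ℝ) ≤ ((N + 1 : ℕ) : ℝ) ^ (t + 3) := by exact_mod_cast h5
    _ = ((N + 1 : ℕ) : ℝ) ^ ((t + 3 : ℕ) : ℝ) := by rw [Real.rpow_natCast]
    _ ≤ _ := by
      refine Real.rpow_le_rpow_of_exponent_le (by linarith) ?_
      push_cast at ht2 ⊢
      linarith

end Crest.Agent.R327
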